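import Vale.Agent.P106.U.H565.SelJ2

/-!
# P106 / U / H565 : joint selection, second word on an event (helper565)

`PSelJ3` (literal, constants explicit), `pSelJ3 : PSelJ3` : as `PSelJ2`; the value `e2` of the second word satisfies `A e2`, for a
property `A` of the second word whose probability under `Q1` is at least `pg` (COMPAT of helper205, `pg = p0 / 2`).
`psel2A` : the second selection on an event.
-/

set_option autoImplicit false

namespace Vale.Agent.P106.U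

open Finset Vale.Agent.P127 Vale.Agent.P127.Stk Vale.Agent.P127.U Vale.Agent.P106.W Vale.Agent.P106.K
open Vale.Agent.P127.U.Nonat Vale.Agent.P127.U.YPat Vale.Agent.P127.U.JSB H565

/-- **second selection on an event** : the word `Z` (at most `M` values) is a function of the past `F b` of every block `b ∈ G`; one value
of `Z` keeps near-extremality and the mean collision probability of the blocks of `G`, and finitely many averages -/
theorem psel2A {c lam N k β β' : ℝ} (hc : 1 ≤ c) (h0 : 0 ≤ lam) (h1 : lam ≤ 1) (hN : 0 ≤ N) (hk : 0 ≤ k)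
    (hββ : β ≤ β') (hF : FIX c lam N k β') {ε : ℝ} (hε : 0 < ε) :
    ∃ K : ℝ, 0 ≤ K ∧ ∀ (Ω : Type) [Fintype Ω] (γ : Type) (P : Law Ω) (l : Ω → Ry) (t : Ω → ℝ) (C : Ω → γ)
      (L h q : ℕ) (W : Ω → Cbx) (d : ℝ), NEx c lam N k β d P l t C L h q W →
      ∀ (S : Type) (Z : Ω → S) (M : ℕ), (img Z).card ≤ M →
      ∀ (A : S → Prop) (pg : ℝ), 0 < pg → pg ≤ prE P (fun ω => A (Z ω)) →
      ∀ (T U : Type) (Y : ℕ → Ω → T) (F : ℕ → Ω → U) (G : Finset ℕ) (ρ : ℝ), 0 < ρ →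
        (∀ b ∈ G, Dtm P (F b) Z) → (∀ b ∈ G, colp P (Y b) (F b) ≤ ρ) →
      ∀ (ι : Type) (s : Finset ι) (H : ι → S → ℝ) (cs : ι → ℝ),
        (∀ j ∈ s, ∀ ω, 0 < P.w ω → 0 ≤ H j (Z ω)) → (∀ j ∈ s, 0 < cs j) →
        (∀ j ∈ s, P.ex (fun ω => H j (Z ω)) ≤ cs j) →
      ∀ d' : ℝ, (s.card + 4) / pg * ((β' - β + d + ε) * h * Real.log 2 + (N + 1) * Real.log M + K) ≤ d' * h * Real.log 2 →
      ∃ (z : S) (Q : Law Ω), Q = P.cond Z z ∧ NEx c lam N k β d' Q l t C L h q W ∧ A z ∧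
        pg / ((s.card + 4) * M) ≤ P.pr Z z ∧ (∀ ω, P.pr Z z * Q.w ω ≤ P.w ω) ∧
        (∀ ω, 0 < Q.w ω → 0 < P.w ω ∧ Z ω = z) ∧
        (∀ j ∈ s, H j z ≤ (s.card + 4) * cs j / pg) ∧
        (∑ b ∈ G, colp Q (Y b) (F b) ≤ (s.card + 4) * (ρ * (G.card + 1)) / pg) ∧
        (∀ b ∈ G, ∀ ω, 0 < Q.w ω → cp Q (Y b) (F b) ω = cp P (Y b) (F b) ω) := by
  classical
  obtain ⟨K, hK0, hK⟩ := nex_sel hc h0 h1 hN hk hββ hF hε
  refine ⟨K, hK0, ?_⟩
  intro Ω _ γ P l t C L h q W d hP S Z M hM A pg hpg hA T U Y F G ρ hρ hdt hcol ι s H cs hH0 hcs hHa d' hd'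
  have hs0 : (0 : ℝ) ≤ s.card := Nat.cast_nonneg _
  set Gf : S → ℝ := fun z => ∑ b ∈ G, colp (P.cond Z z) (Y b) (F b) with hGf
  have hGav : P.ex (fun ω => Gf (Z ω)) ≤ ρ * (G.card + 1) := by
    have e1 : P.ex (fun ω => Gf (Z ω)) = ∑ b ∈ G, P.ex (fun ω => colp (P.cond Z (Z ω)) (Y b) (F b)) :=
      ex_sum' P G (fun b ω => colp (P.cond Z (Z ω)) (Y b) (F b))
    rw [e1]
    have e2 : ∑ b ∈ G, P.ex (fun ω => colp (P.cond Z (Z ω)) (Y b) (F b)) ≤ ∑ _b ∈ G, ρ := by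
      refine Finset.sum_le_sum fun b hb => ?_
      rw [colp_avg (hdt b hb)]
      exact hcol b hb
    rw [Finset.sum_const, nsmul_eq_mul] at e2
    nlinarith
  have hcard : (((Finset.insertNone s).card : ℕ) : ℝ) = s.card + 1 := by
    rw [Finset.card_insertNone]
    push_cast
    ring
  obtain ⟨ω₀, w1, w2, w3, w4, w5⟩ := hK Ω γ P l t C L h q W d hP S (Option ι) Z A
    (Finset.insertNone s) (fun o z => o.elim (Gf z) (fun j => H j z)) (fun o => o.elim (ρ * (G.card + 1)) cs) pg M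
    hpg hM (by
      intro o ho ω hω
      cases o with
      | none => exact Finset.sum_nonneg fun b _ => colp_nonneg _ _ _
      | some j => exact hH0 j (Finset.some_mem_insertNone.1 ho) ω hω) (by
      intro o ho
      cases o with
      | none => exact mul_pos hρ (by positivity)
      | some j => exact hcs j (Finset.some_mem_insertNone.1 ho)) (by
      intro o ho
      cases o with
      | none => exact hGav
      | some j => exact hHa j (Finset.some_mem_insertNone.1 ho)) hA d' (by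
      refine le_trans (le_of_eq ?_) hd'
      rw [hcard]
      ring)
  rw [hcard] at w3 w4
  have hp : 0 < P.pr Z (Z ω₀) := P.pr_pos Z w1
  refine ⟨Z ω₀, P.cond Z (Z ω₀), rfl, w5, w2, ?_, cond_dom P Z _ hp,
    fun ω hω => ⟨cond_supp P Z _ hω, cond_supp' P Z _ hp hω⟩, fun j hj => ?_, ?_, fun b hb ω hω => cp_cond (hdt b hb) _ hp hω⟩
  · refine le_trans (le_of_eq ?_) w3
    ring
  · have := w4 (some j) (Finset.some_mem_insertNone.2 hj)
    refine this.trans (le_of_eq ?_)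
    show (((s.card : ℝ) + 1) + 3) * cs j / pg = _
    ring
  · have := w4 none Finset.none_mem_insertNone
    refine (show Gf (Z ω₀) ≤ _ from this).trans (le_of_eq ?_)
    show (((s.card : ℝ) + 1) + 3) * (ρ * (G.card + 1)) / pg = _
    ring

/-- **the result of the joint selection**, separated caps -/
structure SelJ3 {Ω : Type} [Fintype Ω] (P : Law Ω) {S S2 T U : Type} (Pw : Ω → S) (M1 : ℕ) (B : ℕ) (a μ ε₁ : ℝ)
    (Y : ℕ → Ω → T) (F : ℕ → Ω → U) (Zw : Law Ω → ℕ → Ω → S2) (M2 : ℕ) (A : S2 → Prop)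
    (pg : ℝ) (Sc Cs : ℕ) (u : ℕ → ℕ) (b1 : ℕ) (e1 : S) (E : Finset ℕ) (e2 : S2) (Q1 Q2 : Law Ω) (G : Finset ℕ) : Prop where
  hb1 : b1 < B
  q1 : Q1 = P.cond (fun ω => (Pw ω, ypat P B Y F a ω)) (e1, E)
  q2 : Q2 = Q1.cond (Zw Q1 b1) e2
  p1 : μ / (6 * (M1 * 2 ^ B)) ≤ P.pr (fun ω => (Pw ω, ypat P B Y F a ω)) (e1, E)
  p2 : pg / (4 * M2) ≤ Q1.pr (Zw Q1 b1) e2
  /-- the value of the second word is admissible -/
  good : A e2
  pos1 : 0 < P.pr (fun ω => (Pw ω, ypat P B Y F a ω)) (e1, E)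
  pos2 : 0 < Q1.pr (Zw Q1 b1) e2
  dom1 : ∀ ω, P.pr (fun ω => (Pw ω, ypat P B Y F a ω)) (e1, E) * Q1.w ω ≤ P.w ω
  dom2 : ∀ ω, Q1.pr (Zw Q1 b1) e2 * Q2.w ω ≤ Q1.w ω
  sup1 : ∀ ω, 0 < Q1.w ω → 0 < P.w ω ∧ Pw ω = e1 ∧ ypat P B Y F a ω = E
  sup2 : ∀ ω, 0 < Q2.w ω → 0 < Q1.w ω ∧ Zw Q1 b1 ω = e2
  /-- the second word is a function of the past of every block from the base on -/
  dtm : ∀ b, b1 ≤ b → b ≤ B → Dtm Q1 (F b) (Zw Q1 b1)
  /-- the conditional laws given the past of a block do not change -/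
  cpe : ∀ {X : Type} (f : Ω → X) b, b1 ≤ b → b ≤ B → ∀ ω, 0 < Q2.w ω → cp Q2 f (F b) ω = cp Q1 f (F b) ω
  gsub : ∀ b ∈ G, b ∈ E ∧ b < B ∧ ∃ s < Sc, b1 + u s ≤ b ∧ b < b1 + 2 * u s
  gsep : ∀ b ∈ G, ∀ b' ∈ G, b < b' → 2 * (b - b1) + Cs ≤ b' - b1
  gcard : μ / 32 * Sc ≤ (G.card : ℝ)
  gcol1 : ∀ b ∈ G, colp Q1 (Y b) (F b) ≤ 2 * ε₁
  gcol2 : ∀ b ∈ G, colp Q2 (Y b) (F b) ≤ 32 * ε₁ / pg
  light : ∀ b ∈ E, ∀ ω, 0 < Q1.w ω → cp P (Y b) (F b) ω ≤ a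

/-- **joint selection**, separated caps -/
def PSelJ3 : Prop :=
  ∀ c lam N k β β' : ℝ, 1 ≤ c → 0 ≤ lam → lam ≤ 1 → 0 ≤ N → 0 ≤ k → β ≤ β' → FIX c lam N k β' → ∀ ε : ℝ, 0 < ε →
    ∃ K : ℝ, 0 ≤ K ∧ ∀ (Ω : Type) [Fintype Ω] (γ : Type) (P : Law Ω) (l : Ω → Ry) (t : Ω → ℝ) (C : Ω → γ)
      (L h q : ℕ) (W : Ω → Cbx) (d : ℝ), NEx c lam N k β d P l t C L h q W →
      ∀ (S S2 T U : Type) (Pw : Ω → S) (M1 : ℕ) (B Nb : ℕ) (Y : ℕ → Ω → T) (F : ℕ → Ω → U) (a μ ε₁ : ℝ)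
        (Zw : Law Ω → ℕ → Ω → S2) (M2 : ℕ) (A : S2 → Prop) (pg : ℝ) (Sc Cs : ℕ) (u : ℕ → ℕ),
        (img Pw).card ≤ M1 → 0 < B → 0 < Sc → 1 < Nb → 0 < a → a ≤ 1 → 0 < μ → a < ε₁ → 1 < ε₁ * Real.log (ε₁ / a) →
        YBl P B Nb a μ Y F →
        Real.log (6 * (M1 * 2 ^ B) / μ) ≤ μ / 8 * B * (ε₁ * Real.log (ε₁ / a) - 1) →
        (∀ s < Sc, 0 < u s) → (∀ s < Sc, 2 * (u s : ℝ) ≤ μ / 16 * B) → (∀ s, s + 1 < Sc → 4 * u s + Cs ≤ u (s + 1)) →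
        0 < pg →
        (∀ Q : Law Ω, (∀ ω, 0 < Q.w ω → 0 < P.w ω) → ∀ b1 < B, (img (Zw Q b1)).card ≤ M2 ∧ Dtm Q (F b1) (Zw Q b1)) →
      ∀ d1 d2 : ℝ,
        (∀ b1 < B, ∀ (e1 : S) (E : Finset ℕ) (Q1 : Law Ω), Q1 = P.cond (fun ω => (Pw ω, ypat P B Y F a ω)) (e1, E) →
          μ / (6 * (M1 * 2 ^ B)) ≤ P.pr (fun ω => (Pw ω, ypat P B Y F a ω)) (e1, E) →
          NEx c lam N k β d1 Q1 l t C L h q W → pg ≤ prE Q1 (fun ω => A (Zw Q1 b1 ω))) →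
        6 / μ * ((β' - β + d + ε) * h * Real.log 2 + (N + 1) * (Real.log M1 + B * Real.log 2) + K) ≤
          d1 * h * Real.log 2 →
        4 / pg * ((β' - β + d1 + ε) * h * Real.log 2 + (N + 1) * Real.log M2 + K) ≤ d2 * h * Real.log 2 →
      ∃ (b1 : ℕ) (e1 : S) (E : Finset ℕ) (e2 : S2) (Q1 Q2 : Law Ω) (G : Finset ℕ),
        NEx c lam N k β d1 Q1 l t C L h q W ∧ NEx c lam N k β d2 Q2 l t C L h q W ∧
        SelJ3 P Pw M1 B a μ ε₁ Y F Zw M2 A pg Sc Cs u b1 e1 E e2 Q1 Q2 G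

open Classical in
/-- **joint selection**, separated caps -/
theorem pSelJ3 : PSelJ3 := by
  intro c lam N k β β' hc h0 h1 hN hk hββ hF ε hε
  obtain ⟨K1, hK10, hK1⟩ := psel hc h0 h1 hN hk hββ hF hε
  obtain ⟨K2, hK20, hK2⟩ := psel2A hc h0 h1 hN hk hββ hF hε
  refine ⟨K1 + K2, by positivity, ?_⟩
  intro Ω _ γ P l t C L h q W d hP S S2 T U Pw M1 B Nb Y F a μ ε₁ Zw M2 A pg Sc Cs u hM1 hB hSc hNb ha ha1 hμ haε hε1 hY hlog
    hu0 hu1 hu hpg hZ d1 d2 hAg hd1 hd2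
  have hε₁ : 0 < ε₁ := ha.trans haε
  have hBr : (0 : ℝ) < B := by exact_mod_cast hB
  have hScr : (0 : ℝ) < Sc := by exact_mod_cast hSc
  obtain ⟨e1, E, Q1, q1, nex1, r1, dm1, sp1, Esub, Ecard, lgt, -, few⟩ := hK1 Ω γ P l t C L h q W d hP S Pw M1 hM1 T U
    B Nb Y F a μ hB hNb ha ha1 hμ hY.blk hY.nest hY.thr hY.grow Unit ∅ (fun _ _ => 0) (fun _ => 1)
    (by simp) (by simp) (by simp) d1 (by
      refine le_trans ?_ hd1
      rw [Finset.card_empty, Nat.cast_zero, zero_add]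
      have e0 : (3 : ℝ) * (2 / μ) = 6 / μ := by ring
      rw [e0]
      refine mul_le_mul_of_nonneg_left ?_ (by positivity)
      linarith)
  simp only [Finset.card_empty, Nat.cast_zero, zero_add] at r1 few
  have e6 : (2 : ℝ) * 3 = 6 := by norm_num
  rw [e6] at r1 few
  have hM1pos : 0 < M1 := H565.img_card_pos P Pw hM1
  have hM1r : (0 : ℝ) < M1 := by exact_mod_cast hM1pos
  -- the good blocks
  set bad : Finset ℕ := E.filter fun b => 2 * ε₁ < colp Q1 (Y b) (F b) with hbad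
  have hbadcard : (bad.card : ℝ) ≤ μ / 8 * (B : ℝ) := by
    have b1 := few ε₁ haε bad (Finset.filter_subset _ _) fun b hb => (Finset.mem_filter.1 hb).2
    have b2 : 0 < ε₁ * Real.log (ε₁ / a) - 1 := by linarith
    exact le_of_mul_le_mul_right (b1.trans hlog) b2
  set G1 : Finset ℕ := E \ bad with hG1
  have hG1card : μ / 8 * (B : ℝ) ≤ (G1.card : ℝ) := by
    have b1 : (E.card : ℝ) ≤ G1.card + bad.card := by
      have : E.card ≤ G1.card + bad.card := by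
        rw [hG1, Finset.card_sdiff_add_card]
        exact Finset.card_le_card Finset.subset_union_left
      exact_mod_cast this
    have b2 : μ / 4 * (B : ℝ) = μ / 8 * (B : ℝ) + μ / 8 * (B : ℝ) := by ring
    linarith
  obtain ⟨b1, hb1, G2, hG2sub, hG2c, hG2s, hG2sep⟩ := H715.scales (G1 := G1) (N := B) (S := Sc) (C := Cs) (ρ := μ / 8)
    (u := u) hB (Finset.sdiff_subset.trans Esub) hG1card hu0 (fun s hs => by
      have := hu1 s hs
      linarith) hu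
  have hG2E : ∀ b ∈ G2, b ∈ E ∧ ¬ 2 * ε₁ < colp Q1 (Y b) (F b) ∧ b < B ∧ b1 ≤ b := by
    intro b hb
    obtain ⟨b3, b4⟩ := Finset.mem_sdiff.1 (hG2sub hb)
    obtain ⟨s, _, hs, _⟩ := hG2s b hb
    refine ⟨b3, fun h => b4 (Finset.mem_filter.2 ⟨b3, h⟩), Finset.mem_range.1 (Esub b3), by omega⟩
  have hsupP : ∀ ω, 0 < Q1.w ω → 0 < P.w ω := fun ω hω => (sp1 ω hω).1
  obtain ⟨hMc, hdt⟩ := hZ Q1 hsupP b1 hb1
  have hdtb : ∀ b, b1 ≤ b → b ≤ B → Dtm Q1 (F b) (Zw Q1 b1) := by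
    intro b hb1 hb2 ω ω' hω hω' e
    exact hdt ω ω' hω hω' (H565.nest_down hY.nest hb1 hb2 (hsupP ω hω) (hsupP ω' hω') e)
  obtain ⟨e2, Q2, q2, nex2, gA, r2, dm2, sp2, -, sumc, cpe⟩ := hK2 Ω γ Q1 l t C L h q W d1 nex1 S2 (Zw Q1 b1) M2 hMc
    A pg hpg (hAg b1 hb1 e1 E Q1 q1 r1 nex1) T U Y F G2 (2 * ε₁) (by positivity) (fun b hb => hdtb b (hG2E b hb).2.2.2 (hG2E b hb).2.2.1.le)
    (fun b hb => not_lt.1 (hG2E b hb).2.1) Unit ∅ (fun _ _ => 0)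
    (fun _ => 1) (by simp) (by simp) (by simp) d2 (by
      refine le_trans ?_ hd2
      rw [Finset.card_empty, Nat.cast_zero, zero_add]
      refine mul_le_mul_of_nonneg_left ?_ (by positivity)
      linarith)
  simp only [Finset.card_empty, Nat.cast_zero, zero_add] at r2 sumc
  have hM2pos : 0 < M2 := H565.img_card_pos Q1 (Zw Q1 b1) hMc
  have hM2r : (0 : ℝ) < M2 := by exact_mod_cast hM2pos
  have hpos1 : 0 < P.pr (fun ω => (Pw ω, ypat P B Y F a ω)) (e1, E) := lt_of_lt_of_le (by positivity) r1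
  have hpos2 : 0 < Q1.pr (Zw Q1 b1) e2 := lt_of_lt_of_le (by positivity) r2
  -- the good blocks for the second law
  have hG2pos : 1 ≤ G2.card := by
    have : (0 : ℝ) < G2.card := lt_of_lt_of_le (by positivity) hG2c
    exact_mod_cast this
  set G : Finset ℕ := G2.filter fun b => colp Q2 (Y b) (F b) ≤ 32 * ε₁ / pg with hG
  have hGcard : (G2.card : ℝ) / 2 ≤ G.card := by
    have b1 : (G2.card : ℝ) = G.card + (G2.filter fun b => ¬ colp Q2 (Y b) (F b) ≤ 32 * ε₁ / pg).card := by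
      have := Finset.card_filter_add_card_filter_not (s := G2) (fun b => colp Q2 (Y b) (F b) ≤ 32 * ε₁ / pg)
      exact_mod_cast this.symm
    have b2 : ((G2.filter fun b => ¬ colp Q2 (Y b) (F b) ≤ 32 * ε₁ / pg).card : ℝ) * (32 * ε₁ / pg) ≤
        ∑ b ∈ G2, colp Q2 (Y b) (F b) := by
      calc ((G2.filter fun b => ¬ colp Q2 (Y b) (F b) ≤ 32 * ε₁ / pg).card : ℝ) * (32 * ε₁ / pg)
          = ∑ _b ∈ G2.filter fun b => ¬ colp Q2 (Y b) (F b) ≤ 32 * ε₁ / pg, 32 * ε₁ / pg := by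
            rw [Finset.sum_const, nsmul_eq_mul]
        _ ≤ ∑ b ∈ G2.filter fun b => ¬ colp Q2 (Y b) (F b) ≤ 32 * ε₁ / pg, colp Q2 (Y b) (F b) :=
            Finset.sum_le_sum fun b hb => (not_le.1 (Finset.mem_filter.1 hb).2).le
        _ ≤ _ := Finset.sum_le_sum_of_subset_of_nonneg (Finset.filter_subset _ _) fun b _ _ =>
            H565.colp_nonneg _ _ _
    have b3 : (1 : ℝ) ≤ G2.card := by exact_mod_cast hG2pos
    have b4 : (4 : ℝ) * (2 * ε₁ * (G2.card + 1)) / pg ≤ 16 * ε₁ * G2.card / pg := by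
      refine div_le_div_of_nonneg_right ?_ hpg.le
      nlinarith
    have b5 : ((G2.filter fun b => ¬ colp Q2 (Y b) (F b) ≤ 32 * ε₁ / pg).card : ℝ) * (32 * ε₁ / pg) ≤
        (G2.card : ℝ) / 2 * (32 * ε₁ / pg) := by
      have e7 : (G2.card : ℝ) / 2 * (32 * ε₁ / pg) = 16 * ε₁ * G2.card / pg := by ring
      linarith
    have b6 := le_of_mul_le_mul_right b5 (by positivity)
    linarith
  refine ⟨b1, e1, E, e2, Q1, Q2, G, nex1, nex2, ⟨hb1, q1, q2, r1, r2, gA, hpos1, hpos2, dm1, dm2, ?_, fun ω hω => sp2 ω hω, hdtb,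
    ?_, ?_, ?_, ?_, ?_, ?_, lgt⟩⟩
  · intro ω hω
    rw [q1] at hω
    have h2 := cond_supp' P (fun ω => (Pw ω, ypat P B Y F a ω)) (e1, E) hpos1 hω
    exact ⟨cond_supp P _ _ hω, (Prod.mk.inj h2).1, (Prod.mk.inj h2).2⟩
  · intro X f b hb1 hb2 ω hω
    rw [q2] at hω ⊢
    exact H565.cp_cond (hdtb b hb1 hb2) f hpos2 hω
  · intro b hb
    obtain ⟨b3, b4⟩ := Finset.mem_filter.1 hb
    have := hG2E b b3
    exact ⟨this.1, this.2.2.1, hG2s b b3⟩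
  · intro b hb b' hb' hlt
    exact hG2sep b (Finset.mem_filter.1 hb).1 b' (Finset.mem_filter.1 hb').1 hlt
  · have b1 : μ / 32 * (Sc : ℝ) = μ / 8 / 2 * Sc / 2 := by ring
    rw [b1]
    linarith
  · intro b hb
    exact not_lt.1 (hG2E b (Finset.mem_filter.1 hb).1).2.1
  · intro b hb
    exact (Finset.mem_filter.1 hb).2

end Vale.Agent.P106.U
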