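import Vale.Agent.P106.U.H565.YGrow
import Vale.Agent.P106.U.H565.SelJ3
import Vale.Agent.P106.U.S5.Props
import Vale.Agent.P106.U.H449.Wrd1

/-!
# P106 / U / H565 : the selection with the constants of `U/S5/Props` (helper565)

`sel5` : from the normal form (constants `σ`, `ε`; `d1`, `g`, `m`, `B`, `h0` in this order), a first word with `log M1 ≤ CA h / m`,
a second word (function of the past of the base block) with `log M2 ≤ CA h / m`, and the growth of the digits of `v`: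
`nB = ⌊δ1 h / m⌋` blocks, base `b1`, laws `Q1`, `Q2` with `NEx .. ε`, separated caps `G`.
-/

set_option autoImplicit false

namespace Vale.Agent.P106.U

open Finset Vale.Agent.P127 Vale.Agent.P127.Stk Vale.Agent.P127.U Vale.Agent.P106.W Vale.Agent.P106.K
open Vale.Agent.P127.U.Nonat Vale.Agent.P127.U.YPat Vale.Agent.P127.U.JSB H565

namespace H565

/-- larger defect -/
theorem nex_mono {c lam N k β d d' : ℝ} {Ω : Type} [Fintype Ω] {γ : Type} {P : Law Ω} {l : Ω → Ry} {t : Ω → ℝ} {C : Ω → γ}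
    {L h q : ℕ} {W : Ω → Cbx} (hd : d ≤ d') (H : NEx c lam N k β d P l t C L h q W) : NEx c lam N k β d' P l t C L h q W := by
  refine ⟨H.ok, H.hL, H.lb, ?_⟩
  have h1 := H.ex
  have hl : 0 ≤ Real.log 2 := Real.log_nonneg (by norm_num)
  have h2 : (d' - d) * (h * Real.log 2) ≥ 0 := mul_nonneg (by linarith) (by positivity)
  nlinarith

/-- threshold of the light `y`-blocks -/
noncomputable def ay (lam : ℝ) (m : ℕ) : ℝ := Real.exp (Real.log 2 - lam / 8 * (m * Real.log 2))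

theorem ay_pos (lam : ℝ) (m : ℕ) : 0 < ay lam m := Real.exp_pos _

theorem ay_log (lam : ℝ) (m : ℕ) : Real.log (ay lam m) = Real.log 2 - lam / 8 * (m * Real.log 2) := Real.log_exp _

/-- the conditions on the threshold for large `m` -/
theorem ay_ok {lam ε₁ : ℝ} (hl : 0 < lam) (he : 0 < ε₁) {C : ℝ} (hC : 0 ≤ C) : ∃ m0 : ℕ, 1 ≤ m0 ∧ ∀ m : ℕ, m0 ≤ m →
    ay lam m ≤ 1 ∧ ay lam m < ε₁ ∧ 1 < ε₁ * Real.log (ε₁ / ay lam m) ∧ C ≤ ε₁ * Real.log (ε₁ / ay lam m) - 1 := by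
  have l2 : 0 < Real.log 2 := Real.log_pos (by norm_num)
  have hc : 0 < lam / 8 * Real.log 2 := by positivity
  obtain ⟨m1, hm1⟩ := exists_nat_gt ((Real.log 2 + |Real.log ε₁| + (C + 2) / ε₁ + 1) / (lam / 8 * Real.log 2))
  refine ⟨max m1 1, le_max_right _ _, fun m hm => ?_⟩
  have hm' : (m1 : ℝ) ≤ m := by exact_mod_cast (le_max_left _ _).trans hm
  have hx : Real.log 2 + |Real.log ε₁| + (C + 2) / ε₁ + 1 < lam / 8 * (m * Real.log 2) := by
    have h1 := hm1.trans_le hm'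
    rw [div_lt_iff₀ hc] at h1
    linarith
  have hCe : 0 < (C + 2) / ε₁ := by positivity
  have ha := ay_pos lam m
  have hlog := ay_log lam m
  have h3 : Real.log (ay lam m) < Real.log ε₁ := by
    rw [hlog]
    linarith [neg_abs_le (Real.log ε₁)]
  have h4 : Real.log (ay lam m) < 0 := by
    rw [hlog]
    linarith [abs_nonneg (Real.log ε₁)]
  have h5 : Real.log (ε₁ / ay lam m) = Real.log ε₁ - Real.log (ay lam m) := Real.log_div he.ne' ha.ne'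
  have h6 : (C + 2) / ε₁ ≤ Real.log (ε₁ / ay lam m) := by
    rw [h5, hlog]
    linarith [neg_abs_le (Real.log ε₁)]
  have h7 : C + 2 ≤ ε₁ * Real.log (ε₁ / ay lam m) := by
    have := mul_le_mul_of_nonneg_left h6 he.le
    rwa [mul_div_cancel₀ _ he.ne'] at this
  refine ⟨?_, (Real.log_lt_log_iff ha he).1 h3, by linarith, by linarith⟩
  have : Real.log (ay lam m) < Real.log 1 := by rw [Real.log_one]; exact h4
  exact ((Real.log_lt_log_iff ha one_pos).1 this).le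

end H565

open S5

/-- number of the `y`-blocks -/
noncomputable def nBl (δ1 : ℝ) (h m : ℕ) : ℕ := ⌊δ1 * h / m⌋₊

theorem nBl_le {δ1 : ℝ} (hδ : 0 ≤ δ1) {h m : ℕ} (hm : 0 < m) : ((m * nBl δ1 h m : ℕ) : ℝ) ≤ δ1 * h := by
  have hmr : (0 : ℝ) < m := by exact_mod_cast hm
  have h1 := Nat.floor_le (a := δ1 * h / m) (by positivity)
  rw [le_div_iff₀ hmr] at h1
  push_cast
  unfold nBl
  linarith

theorem le_nBl {δ1 : ℝ} (hδ : 0 < δ1) {h m : ℕ} (hm : 0 < m) (hh : 2 * (m : ℝ) / δ1 ≤ h) :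
    δ1 * h / 2 ≤ ((m * nBl δ1 h m : ℕ) : ℝ) ∧ 0 < nBl δ1 h m ∧ (h : ℝ) / m ≤ 2 / δ1 * nBl δ1 h m := by
  have hmr : (0 : ℝ) < m := by exact_mod_cast hm
  have h1 := Nat.lt_floor_add_one (δ1 * h / m)
  rw [div_lt_iff₀ hmr] at h1
  rw [div_le_iff₀ hδ] at hh
  have h2 : δ1 * h / 2 ≤ ((m * nBl δ1 h m : ℕ) : ℝ) := by
    push_cast
    unfold nBl
    nlinarith
  refine ⟨h2, ?_, ?_⟩
  · by_contra h3
    push Not at h3
    have h4 : nBl δ1 h m = 0 := by omega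
    rw [h4, mul_zero, Nat.cast_zero] at h2
    nlinarith
  · rw [div_le_iff₀ hmr, div_mul_eq_mul_div, div_mul_eq_mul_div, le_div_iff₀ hδ]
    push_cast at h2
    linarith

/-! ### arithmetic -/

namespace H565

theorem s5_grow {lam δ1 k d1 h X Kg b l2 r : ℝ} (l2p : 1 / 2 < l2) (hlam : 0 < lam) (hδ : 0 < δ1) (hh : 0 < h)
    (hk : 8 * k ≤ lam / 8) (hd : d1 ≤ lam * δ1 / 64) (hX : δ1 * h / 2 ≤ X) (hK : 64 * (|Kg| + b) / (lam * δ1) ≤ h)
    (hr : r = lam - 8 * k) : 3 * d1 * h * l2 + Kg + b ≤ (r - lam / 2) * X * l2 := by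
  have hl : 0 < lam * δ1 := by positivity
  have e2 : lam / 4 * (δ1 * h / 2) ≤ (r - lam / 2) * X :=
    mul_le_mul (by rw [hr]; linarith) hX (by positivity) (by rw [hr]; linarith)
  rw [div_le_iff₀ hl] at hK
  have e3 : 3 * d1 * h ≤ 3 * (lam * δ1 / 64) * h := mul_le_mul_of_nonneg_right (by linarith) hh.le
  have l0 : 0 < l2 := by linarith
  have e5 := mul_le_mul_of_nonneg_right e2 l0.le
  have e6 := mul_le_mul_of_nonneg_right e3 l0.le
  have hp : 0 < lam * δ1 * h := by positivity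
  have e7 : lam * δ1 * h / 64 ≤ lam * δ1 * h / 16 * l2 := by nlinarith
  have e8 : Kg + b ≤ lam * δ1 * h / 64 := by linarith [le_abs_self Kg]
  have e9 : 3 * (lam * δ1 / 64) * h * l2 + lam * δ1 * h / 16 * l2 ≤ lam / 4 * (δ1 * h / 2) * l2 := by
    have : 0 < lam * δ1 * h * l2 := by positivity
    linarith
  linarith

theorem s5_thr {lam CA δ1 nB x lM l2 CD y : ℝ} (hlam : 0 < lam) (hδ : 0 < δ1) (hn : 1 ≤ nB)
    (hlM : lM ≤ CA * (2 / δ1 * nB)) (l2p : l2 ≤ 1) (hCD : CD = 16 / lam * (2 * CA / δ1 + 1 + |x|)) (hy : CD ≤ y) :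
    x + lM + nB * l2 ≤ lam / 2 / 8 * nB * y := by
  have e2 : lam / 2 / 8 * nB * CD ≤ lam / 2 / 8 * nB * y := mul_le_mul_of_nonneg_left hy (by positivity)
  have e3 : lam / 2 / 8 * nB * CD = (2 * CA / δ1 + 1 + |x|) * nB := by
    rw [hCD]
    field_simp
    ring
  have e1 : x ≤ |x| * nB := by
    have h1 := le_abs_self x
    have h2 : |x| * 1 ≤ |x| * nB := mul_le_mul_of_nonneg_left hn (abs_nonneg _)
    linarith
  have e4 : CA * (2 / δ1 * nB) = 2 * CA / δ1 * nB := by ring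
  have e5 : nB * l2 ≤ nB * 1 := mul_le_mul_of_nonneg_left l2p (by linarith)
  have e6 : (2 * CA / δ1 + 1 + |x|) * nB = 2 * CA / δ1 * nB + nB + |x| * nB := by ring
  linarith

theorem s5_scale {lam δ1 m u h nB : ℝ} (hlam : 0 < lam) (hδ : 0 < δ1) (hm : 0 < m)
    (h1 : 128 / (lam * δ1) * m * u ≤ h) (h2 : δ1 * h / 2 ≤ m * nB) : 2 * u ≤ lam / 2 / 16 * nB := by
  have e3 : 128 * m * u ≤ h * (lam * δ1) := by
    have := mul_le_mul_of_nonneg_right h1 (by positivity : (0 : ℝ) ≤ lam * δ1)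
    have e4 : 128 / (lam * δ1) * m * u * (lam * δ1) = 128 * m * u := by
      field_simp
    rwa [e4] at this
  have e5 : lam * (δ1 * h / 2) ≤ lam * (m * nB) := mul_le_mul_of_nonneg_left h2 hlam.le
  have e6 : m * (128 * u) ≤ m * (2 * lam * nB) := by linarith
  have := le_of_mul_le_mul_left e6 hm
  linarith

theorem s5_d1 {lam N1 CA ε m h nB lM K l2 d1 x : ℝ} (hlam : 0 < lam) (hN : 0 ≤ N1) (hε : 0 < ε) (hm : 0 < m) (hh : 0 < h)
    (l2p : 1 / 2 < l2) (l2q : l2 < 1) (hx : x ≤ 3 * d1) (hd : d1 ≤ ε * lam / 4096) (hlM : lM ≤ CA * h / m)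
    (hnB : nB ≤ h / m) (hn0 : 0 ≤ nB) (hmm : 12 / lam * N1 * (CA + 1) * (128 / ε) ≤ m) (hK : 12 / lam * K * (128 / ε) ≤ h) :
    6 / (lam / 2) * (x * h * l2 + N1 * (lM + nB * l2) + K) ≤ ε / 16 * h * l2 := by
  have e0 : (6 : ℝ) / (lam / 2) = 12 / lam := by
    field_simp
    ring
  rw [e0]
  have l0 : 0 < l2 := by linarith
  have hhl : 0 < h * l2 := by positivity
  have e2 : 12 / lam * (3 * d1) ≤ ε / 64 := by
    rw [div_mul_eq_mul_div, div_le_iff₀ hlam]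
    have := mul_pos hε hlam
    linarith
  have e3 : lM + nB * l2 ≤ (CA + 1) * (h / m) := by
    have h1 : nB * l2 ≤ nB * 1 := mul_le_mul_of_nonneg_left l2q.le hn0
    have h2 : CA * h / m = CA * (h / m) := by ring
    rw [h2] at hlM
    linarith
  have e4 : 12 / lam * (N1 * ((CA + 1) * (h / m))) ≤ ε / 64 * (h * l2) := by
    have h3 := mul_le_mul_of_nonneg_left hmm (by positivity : (0 : ℝ) ≤ ε / 128)
    have h4 : ε / 128 * (12 / lam * N1 * (CA + 1) * (128 / ε)) = 12 / lam * N1 * (CA + 1) := by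
      field_simp
    rw [h4] at h3
    have h5 : 12 / lam * (N1 * ((CA + 1) * (h / m))) = 12 / lam * N1 * (CA + 1) * (h / m) := by ring
    rw [h5]
    refine (mul_le_mul_of_nonneg_right h3 (by positivity)).trans ?_
    have h6 : ε / 128 * m * (h / m) = ε / 128 * h := by
      field_simp
    rw [h6]
    have := mul_pos hε hh
    nlinarith
  have e5 : 12 / lam * K ≤ ε / 64 * (h * l2) := by
    have h3 := mul_le_mul_of_nonneg_left hK (by positivity : (0 : ℝ) ≤ ε / 128)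
    have h4 : ε / 128 * (12 / lam * K * (128 / ε)) = 12 / lam * K := by
      field_simp
    rw [h4] at h3
    have := mul_pos hε hh
    nlinarith
  have e6 : 12 / lam * (x * h * l2) ≤ ε / 64 * (h * l2) := by
    have h1 : x * (h * l2) ≤ 3 * d1 * (h * l2) := mul_le_mul_of_nonneg_right hx hhl.le
    have h2 := mul_le_mul_of_nonneg_left h1 (by positivity : (0 : ℝ) ≤ 12 / lam)
    have h3 := mul_le_mul_of_nonneg_right e2 hhl.le
    have h4 : 12 / lam * (x * h * l2) = 12 / lam * (x * (h * l2)) := by ring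
    have h5 : 12 / lam * (3 * d1 * (h * l2)) = 12 / lam * (3 * d1) * (h * l2) := by ring
    linarith
  have e7 : 12 / lam * (N1 * (lM + nB * l2)) ≤ 12 / lam * (N1 * ((CA + 1) * (h / m))) :=
    mul_le_mul_of_nonneg_left (mul_le_mul_of_nonneg_left e3 hN) (by positivity)
  have e8 : 12 / lam * (x * h * l2 + N1 * (lM + nB * l2) + K) =
      12 / lam * (x * h * l2) + 12 / lam * (N1 * (lM + nB * l2)) + 12 / lam * K := by ring
  rw [e8]
  have := mul_pos hε hhl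
  linarith

theorem s5_d2 {lam N1 CA ε m h lM K l2 d1 x : ℝ} (hlam : 0 < lam) (hlam1 : lam < 1) (hN : 0 ≤ N1) (hε : 0 < ε)
    (hm : 0 < m) (hh : 0 < h)
    (l2p : 1 / 2 < l2) (hx : x ≤ 2 * d1 + ε / 16) (hd : d1 ≤ ε * lam / 4096) (hlM : lM ≤ CA * h / m)
    (hmm : 64 * N1 * (CA + 1) / ε ≤ m) (hK : 64 * K / ε ≤ h) :
    4 * (x * h * l2 + N1 * lM + K) ≤ ε * h * l2 := by
  have l0 : 0 < l2 := by linarith
  have hhl : 0 < h * l2 := by positivity
  have he : 0 < ε * h := mul_pos hε hh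
  have e2 : 8 * d1 ≤ ε / 8 := by
    have : ε * lam ≤ ε * 1 := mul_le_mul_of_nonneg_left hlam1.le hε.le
    linarith
  have e3 : 4 * (N1 * lM) ≤ ε / 8 * (h * l2) := by
    rw [div_le_iff₀ hε] at hmm
    have h2 : lM ≤ (CA + 1) * (h / m) := by
      have h3 : CA * h / m = CA * (h / m) := by ring
      rw [h3] at hlM
      have : 0 ≤ h / m := by positivity
      linarith
    have h3 : 4 * (N1 * lM) ≤ 4 * (N1 * ((CA + 1) * (h / m))) := by
      have := mul_le_mul_of_nonneg_left h2 hN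
      linarith
    refine h3.trans ?_
    have h4 : 4 * (N1 * ((CA + 1) * (h / m))) = 64 * N1 * (CA + 1) * (h / m) / 16 := by ring
    rw [h4]
    have h5 : 64 * N1 * (CA + 1) * (h / m) ≤ m * ε * (h / m) := mul_le_mul_of_nonneg_right hmm (by positivity)
    have h6 : m * ε * (h / m) = ε * h := by field_simp
    rw [h6] at h5
    nlinarith
  have e4 : 4 * K ≤ ε / 8 * (h * l2) := by
    rw [div_le_iff₀ hε] at hK
    nlinarith
  have e5 : x * (h * l2) ≤ (2 * d1 + ε / 16) * (h * l2) := mul_le_mul_of_nonneg_right hx hhl.le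
  have e6 := mul_le_mul_of_nonneg_right e2 hhl.le
  have e7 : 0 < ε * (h * l2) := mul_pos hε hhl
  linarith

theorem s5_log {CA h m c4 x lM1 lM2 nB l2 a b : ℝ} (hm : 0 < m) (h1 : a ≤ x + lM1 + nB * l2)
    (h2 : b ≤ c4 + lM2) (hl1 : lM1 ≤ CA * h / m) (hl2 : lM2 ≤ CA * h / m) (hnB : nB * l2 ≤ h / m)
    (h3 : (|x| + c4) * m ≤ h) : a + b ≤ (2 * CA + 2) * h / m := by
  have z4 : x + c4 ≤ h / m := by
    rw [le_div_iff₀ hm]
    have h2 := mul_le_mul_of_nonneg_right (le_abs_self x) hm.le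
    linarith
  have z5 : (2 * CA + 2) * h / m = CA * h / m + CA * h / m + h / m + h / m := by ring
  rw [z5]
  linarith

end H565

/-- **the selection** -/
theorem sel5 {σ : Cst} (hσ : σ.Ok) {CA : ℝ} (hCA : 0 ≤ CA) {ε ε₁ pg : ℝ} (hε : 0 < ε) (hε₁ : 0 < ε₁) (hpg : 0 < pg)
    (hpg1 : pg ≤ 1) :
    ∃ d1 : ℝ, 0 < d1 ∧ ∀ g : Gv, g.Ok σ d1 → ∀ Kg : ℝ, ∃ m0 : ℕ, 1 ≤ m0 ∧ ∀ m B : ℕ, m0 ≤ m → ∃ h0 : ℕ,
      ∀ (Ω : Type) [Fintype Ω] (P : Law Ω) (l : Ω → Ry) (t : Ω → ℝ) (L h q : ℕ) (W : Ω → Cbx), h0 ≤ h →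
      NEx 100 σ.lam σ.N g.k g.β d1 P l t (fun _ => ()) L h q W →
      ∀ (δ : Type) (v : Ω → ℝ) (Wd : Ω → δ), (∀ ω, 0 < P.w ω → |v ω| ≤ 2) →
      (σ.lam - 8 * g.k) * (m * nBl σ.δ1 h m : ℕ) * Real.log 2 ≤
        Stk.hc P (fun ω => fl1 (m * nBl σ.δ1 h m) (v ω)) Wd + (3 * d1 * h * Real.log 2 + Kg) →
      ∀ (S S2 : Type) (Pw : Ω → S) (M1 : ℕ) (Zw : Law Ω → ℕ → Ω → S2) (M2 : ℕ) (A : S2 → Prop), (img Pw).card ≤ M1 →
      Real.log M1 ≤ CA * h / m → Real.log M2 ≤ CA * h / m →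
      (∀ Q : Law Ω, (∀ ω, 0 < Q.w ω → 0 < P.w ω) → ∀ b1 < nBl σ.δ1 h m,
        (img (Zw Q b1)).card ≤ M2 ∧ Dtm Q (pst m v Wd b1) (Zw Q b1)) →
      (∀ b1 < nBl σ.δ1 h m, ∀ (e1 : S) (E : Finset ℕ) (Q1 : Law Ω),
        Q1 = P.cond (fun ω => (Pw ω, ypat P (nBl σ.δ1 h m) (yb m v) (pst m v Wd) (ay σ.lam m) ω)) (e1, E) →
        σ.lam / 2 / (6 * (M1 * 2 ^ (nBl σ.δ1 h m))) ≤
          P.pr (fun ω => (Pw ω, ypat P (nBl σ.δ1 h m) (yb m v) (pst m v Wd) (ay σ.lam m) ω)) (e1, E) →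
        NEx 100 σ.lam σ.N g.k g.β ε Q1 l t (fun _ => ()) L h q W → pg ≤ prE Q1 (fun ω => A (Zw Q1 b1 ω))) →
      0 < nBl σ.δ1 h m ∧
      ∃ (b1 : ℕ) (e1 : S) (E : Finset ℕ) (e2 : S2) (Q1 Q2 : Law Ω) (G : Finset ℕ),
        NEx 100 σ.lam σ.N g.k g.β ε Q1 l t (fun _ => ()) L h q W ∧
        NEx 100 σ.lam σ.N g.k g.β ε Q2 l t (fun _ => ()) L h q W ∧
        SelJ3 P Pw M1 (nBl σ.δ1 h m) (ay σ.lam m) (σ.lam / 2) ε₁ (yb m v) (pst m v Wd) Zw M2 A pg (max B 1) B (H715.scal B)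
          b1 e1 E e2 Q1 Q2 G ∧
        Real.log (1 / (P.pr (fun ω => (Pw ω, ypat P (nBl σ.δ1 h m) (yb m v) (pst m v Wd) (ay σ.lam m) ω)) (e1, E) *
          Q1.pr (Zw Q1 b1) e2)) ≤ (2 * CA + 2) * h / m := by
  classical
  have hlam := hσ.bs.lam0
  have hδ := hσ.δ0
  have hN1 : 0 ≤ σ.N + 1 := by linarith [hσ.bs.N2]
  have l2a : Real.log 2 < 1 := by
    have := Real.log_two_lt_d9
    linarith
  have l2b : 1 / 2 < Real.log 2 := by
    have := Real.log_two_gt_d9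
    linarith
  obtain ⟨ε', hε'⟩ : ∃ ε' : ℝ, ε' = ε * pg := ⟨_, rfl⟩
  have hε0' : 0 < ε' := by rw [hε']; positivity
  have hε1' : ε' ≤ ε := by
    rw [hε']
    exact mul_le_of_le_one_right hε.le hpg1
  obtain ⟨d1, hd10, hd1a, hd1b, hd1c⟩ : ∃ d1 : ℝ, 0 < d1 ∧ d1 ≤ σ.lam / 64 ∧ d1 ≤ σ.lam * σ.δ1 / 64 ∧
      d1 ≤ ε' * σ.lam / 4096 := ⟨min (min (σ.lam / 64) (σ.lam * σ.δ1 / 64)) (ε' * σ.lam / 4096), by positivity,
    (min_le_left _ _).trans (min_le_left _ _), (min_le_left _ _).trans (min_le_right _ _), min_le_right _ _⟩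
  refine ⟨d1, hd10, ?_⟩
  intro g hg Kg
  have hFix : FIX 100 σ.lam σ.N g.k g.b' :=
    (H523.FIXA_mono hlam.le hσ.bs.lam1.le hg.k0.le (by linarith [hg.k0]) hg.fix) 100 (by norm_num)
  obtain ⟨K, hK0, hsel⟩ := pSelJ3 100 σ.lam σ.N g.k g.β g.b' (by norm_num) hlam.le hσ.bs.lam1.le (by linarith [hσ.bs.N2]) hg.k0.le hg.βb hFix
    d1 hd10
  obtain ⟨m1, hm11, hay⟩ := ay_ok (C := 16 / σ.lam * (2 * CA / σ.δ1 + 1 + |Real.log (12 / σ.lam)|)) hlam hε₁ (by positivity)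
  obtain ⟨m2, hm2⟩ := exists_nat_gt (12 / σ.lam * (σ.N + 1) * (CA + 1) * (128 / ε') + 64 * (σ.N + 1) * (CA + 1) / ε')
  refine ⟨max m1 m2, le_max_of_le_left hm11, ?_⟩
  intro m B hm
  have hmm1 : m1 ≤ m := (le_max_left _ _).trans hm
  have hmm2 : m2 ≤ m := (le_max_right _ _).trans hm
  have hm0 : 0 < m := by omega
  have hmr : (0 : ℝ) < m := by exact_mod_cast hm0
  have c1 : 0 ≤ 12 / σ.lam * (σ.N + 1) * (CA + 1) * (128 / ε') := by positivity
  have c2 : 0 ≤ 64 * (σ.N + 1) * (CA + 1) / ε' := by positivity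
  have c3 : (m2 : ℝ) ≤ m := by exact_mod_cast hmm2
  have hma : 12 / σ.lam * (σ.N + 1) * (CA + 1) * (128 / ε') ≤ m := by linarith
  have hmb : 64 * (σ.N + 1) * (CA + 1) / ε' ≤ m := by linarith
  clear c1 c2 c3 hm2
  obtain ⟨a1, a2, a3, a4⟩ := hay m hmm1
  obtain ⟨n1, hn1⟩ := exists_nat_gt (2 * (m : ℝ) / σ.δ1 + 64 * (|Kg| + Real.log 5) / (σ.lam * σ.δ1) +
    12 / σ.lam * K * (128 / ε') + 64 * K / ε' + 128 / (σ.lam * σ.δ1) * m * (H715.scal B B : ℝ) +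
    (|Real.log (12 / σ.lam)| + (Real.log 4 + |Real.log pg|)) * m)
  refine ⟨n1, ?_⟩
  intro Ω _ P l t L h q W hh hne δ v Wd hv hgr S S2 Pw M1 Zw M2 A hM1 hlM1 hlM2 hZ hAg
  have hhr : (n1 : ℝ) ≤ h := by exact_mod_cast hh
  have l5 : 0 ≤ Real.log 5 := Real.log_nonneg (by norm_num)
  have l4 : 0 ≤ Real.log 4 := Real.log_nonneg (by norm_num)
  have t1 : 0 < 2 * (m : ℝ) / σ.δ1 := by positivity
  have t2 : 0 ≤ 64 * (|Kg| + Real.log 5) / (σ.lam * σ.δ1) := by positivity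
  have t3 : 0 ≤ 12 / σ.lam * K * (128 / ε') := by positivity
  have t4 : 0 ≤ 64 * K / ε' := by positivity
  have t5 : 0 ≤ 128 / (σ.lam * σ.δ1) * m * (H715.scal B B : ℝ) := by positivity
  have t6 : 0 ≤ (|Real.log (12 / σ.lam)| + (Real.log 4 + |Real.log pg|)) * m := by positivity
  have u1 : 2 * (m : ℝ) / σ.δ1 ≤ h := by linarith
  have u2 : 64 * (|Kg| + Real.log 5) / (σ.lam * σ.δ1) ≤ h := by linarith
  have u3 : 12 / σ.lam * K * (128 / ε') ≤ h := by linarith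
  have u4 : 64 * K / ε' ≤ h := by linarith
  have u5 : 128 / (σ.lam * σ.δ1) * m * (H715.scal B B : ℝ) ≤ h := by linarith
  have u6 : (|Real.log (12 / σ.lam)| + (Real.log 4 + |Real.log pg|)) * m ≤ h := by linarith
  have hpos : (0 : ℝ) < h := by linarith
  clear t1 t2 t3 t4 t5 t6 hn1 hhr
  obtain ⟨g1, g2, g3⟩ := le_nBl hδ hm0 u1
  have g4 := nBl_le hδ.le (h := h) hm0
  set nB : ℕ := nBl σ.δ1 h m with hnB
  have hnB1 : (1 : ℝ) ≤ nB := by exact_mod_cast g2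
  have hnBh : (nB : ℝ) ≤ h / m := by
    rw [le_div_iff₀ hmr]
    have h1 : σ.δ1 * h ≤ 1 * h := mul_le_mul_of_nonneg_right (by linarith [hσ.δθ, hσ.θ4]) hpos.le
    push_cast at g4
    linarith
  -- YBl
  have hY : YBl P nB (2 ^ m) (ay σ.lam m) (σ.lam / 2) (yb m v) (pst m v Wd) := by
    refine ybl_grow P hv Wd (r := σ.lam - 8 * g.k) (g := 3 * d1 * h * Real.log 2 + Kg) ?_ hgr ?_
    · rw [one_div, Real.log_inv, ay_log]
      linarith
    · exact s5_grow l2b hlam hδ hpos (by linarith [hg.kε]) hd1b g1 u2 rfl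
  have hM1pos : 0 < M1 := H565.img_card_pos P Pw hM1
  have hM1r : (0 : ℝ) < M1 := by exact_mod_cast hM1pos
  have hM2pos : 0 < M2 := H565.img_card_pos P (Zw P 0) (hZ P (fun ω h => h) 0 g2).1
  have hM2r : (0 : ℝ) < M2 := by exact_mod_cast hM2pos
  have hpow : Real.log (6 * ((M1 : ℝ) * 2 ^ nB) / (σ.lam / 2)) = Real.log (12 / σ.lam) + Real.log M1 + nB * Real.log 2 := by
    have e1 : 6 * ((M1 : ℝ) * 2 ^ nB) / (σ.lam / 2) = 12 / σ.lam * M1 * 2 ^ nB := by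
      field_simp
      ring
    rw [e1, Real.log_mul (by positivity) (by positivity), Real.log_mul (by positivity) (by positivity), Real.log_pow]
  have hlM1' : Real.log M1 ≤ CA * (2 / σ.δ1 * nB) := by
    refine hlM1.trans ?_
    rw [mul_div_assoc]
    exact mul_le_mul_of_nonneg_left g3 hCA
  have f1 : Real.log (6 * ((M1 : ℝ) * 2 ^ nB) / (σ.lam / 2)) ≤ σ.lam / 2 / 8 * nB * (ε₁ * Real.log (ε₁ / ay σ.lam m) - 1) := by
    rw [hpow]
    exact s5_thr hlam hδ hnB1 hlM1' l2a.le rfl a4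
  have f2 : ∀ s < max B 1, 2 * (H715.scal B s : ℝ) ≤ σ.lam / 2 / 16 * nB := by
    intro s hs
    have e1 : (H715.scal B s : ℝ) ≤ H715.scal B B := by exact_mod_cast H715.scal_mono (C := B) (by omega : s ≤ B)
    have e2 := s5_scale hlam hδ hmr u5 (by push_cast at g1; exact g1)
    linarith
  have f3 : 6 / (σ.lam / 2) * ((g.b' - g.β + d1 + d1) * h * Real.log 2 + (σ.N + 1) * (Real.log M1 + nB * Real.log 2) + K) ≤
      ε' / 16 * h * Real.log 2 :=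
    s5_d1 hlam hN1 hε0' hmr hpos l2b l2a (by linarith [hg.bε]) hd1c hlM1 hnBh (by linarith) hma u3
  have f4' : 4 * ((g.b' - g.β + ε' / 16 + d1) * h * Real.log 2 + (σ.N + 1) * Real.log M2 + K) ≤ ε' * h * Real.log 2 :=
    s5_d2 hlam hσ.bs.lam1 hN1 hε0' hmr hpos l2b (by linarith [hg.bε]) hd1c hlM2 hmb u4
  have f4 : 4 / pg * ((g.b' - g.β + ε' / 16 + d1) * h * Real.log 2 + (σ.N + 1) * Real.log M2 + K) ≤ ε * h * Real.log 2 := by
    rw [div_mul_eq_mul_div, div_le_iff₀ hpg]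
    refine f4'.trans (le_of_eq ?_)
    rw [hε']
    ring
  obtain ⟨b1, e1, E, e2, Q1, Q2, G, x1, x2, x3⟩ := hsel Ω Unit P l t (fun _ => ()) L h q W d1 hne S S2 ℤ (δ × ℤ) Pw M1 nB
    (2 ^ m) (yb m v) (pst m v Wd) (ay σ.lam m) (σ.lam / 2) ε₁ Zw M2 A pg (max B 1) B (H715.scal B) hM1 g2
    (lt_max_of_lt_right one_pos) (Nat.one_lt_two_pow hm0.ne') (ay_pos _ _) a1 (by positivity) a2 a3 hY f1
    (fun s _ => H715.scal_pos B s) f2 (fun s _ => H715.scal_step B s) hpg hZ (ε' / 16) ε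
    (fun b1 hb e1 E Q1 q1 r1 nx => hAg b1 hb e1 E Q1 q1 r1 (H565.nex_mono (by linarith) nx)) f3 f4
  refine ⟨g2, b1, e1, E, e2, Q1, Q2, G, H565.nex_mono (by linarith) x1, x2, x3, ?_⟩
  have y1 := x3.pos1
  have y2 := x3.pos2
  rw [Real.log_div one_ne_zero (mul_pos y1 y2).ne', Real.log_one, Real.log_mul y1.ne' y2.ne']
  have z1 := Real.log_le_log (by positivity) x3.p1
  have z2 := Real.log_le_log (by positivity) x3.p2
  have h2 : σ.lam / 2 / (6 * ((M1 : ℝ) * 2 ^ nB)) = (6 * ((M1 : ℝ) * 2 ^ nB) / (σ.lam / 2))⁻¹ := by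
    rw [inv_div]
  rw [h2, Real.log_inv, hpow] at z1
  rw [Real.log_div hpg.ne' (by positivity), Real.log_mul (by norm_num) hM2r.ne'] at z2
  have z3 : (nB : ℝ) * Real.log 2 ≤ h / m := by
    have : (nB : ℝ) * Real.log 2 ≤ nB * 1 := mul_le_mul_of_nonneg_left l2a.le (by linarith)
    linarith
  have z6 := s5_log (a := -Real.log (P.pr (fun ω => (Pw ω, ypat P nB (yb m v) (pst m v Wd) (ay σ.lam m) ω)) (e1, E)))
    (b := -Real.log (Q1.pr (Zw Q1 b1) e2)) hmr (by linarith) (by linarith [neg_abs_le (Real.log pg)]) hlM1 hlM2 z3 u6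
  linarith

end Vale.Agent.P106.U
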