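import Vale.Agent.P106.U.H61.Mac
import Vale.Agent.P106.U.H875.Basic
import Vale.Agent.P127.U.H824.YPat

/-!
# P106 / U / H565 : selection of ONE word, abstract part and functional part (helper565)

* `selGen` : event of probability `≥ g` on the values of `Pt`, finitely many nonnegative functions with averages `≤ cs j`.
* `XX0_cond_sum` : `∑ P(z) XX(P_z) ≤ XX(P) + 1` (no reward).
* `Phi` : `val W - XX(0) - N D(h)`; `Phi_le` (from `FIX`), `Phi_avg` (average over the values of a word).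
* `nex_sel` : selection of a word for near-extremal systems.
-/

set_option autoImplicit false

namespace Vale.Agent.P106.U

open Finset Vale.Agent.P127 Vale.Agent.P127.Stk Vale.Agent.P127.U Vale.Agent.P106.W Vale.Agent.P106.K
open Vale.Agent.P127.U.Nonat Vale.Agent.P127.U.YPat Vale.Agent.P127.U.JSB

namespace H565

section sel

variable {Ω : Type} [Fintype Ω] {S ι : Type*}

theorem ex_nonneg' (P : Law Ω) {f : Ω → ℝ} (h : ∀ ω, 0 < P.w ω → 0 ≤ f ω) : 0 ≤ P.ex f := by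
  have h1 := P.ex_mono (f := fun _ => (0 : ℝ)) (g := f) h
  rwa [P.ex_const] at h1

theorem prE_eq_ex (P : Law Ω) (E : Ω → Prop) : prE P E = P.ex fun ω => Law.ind (E ω) := by
  classical
  unfold prE Law.ex
  rw [Finset.sum_filter]
  refine Finset.sum_congr rfl fun ω _ => ?_
  show (if E ω then P.w ω else 0) = P.w ω * Law.ind (E ω)
  by_cases h : E ω
  · rw [if_pos h, Law.ind_of h, mul_one]
  · rw [if_neg h, Law.ind_not h, mul_zero]

theorem ex_sum' (P : Law Ω) (s : Finset ι) (f : ι → Ω → ℝ) :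
    P.ex (fun ω => ∑ j ∈ s, f j ω) = ∑ j ∈ s, P.ex (f j) := by
  unfold Law.ex
  rw [Finset.sum_comm]
  exact Finset.sum_congr rfl fun ω _ => Finset.mul_sum _ _ _

theorem img_card_pos (P : Law Ω) (Pt : Ω → S) {M : ℕ} (hM : (img Pt).card ≤ M) : 0 < M := by
  classical
  have hne : (img Pt).Nonempty := by
    by_contra h0
    rw [Finset.not_nonempty_iff_eq_empty] at h0
    have := P.sum_pr_image Pt
    rw [h0, Finset.sum_empty] at this
    exact absurd this (by norm_num)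
  exact (Finset.card_pos.2 hne).trans_le hM

/-- entropy of a variable with at most `M` values -/
theorem H_le_card (P : Law Ω) (Pt : Ω → S) {M : ℕ} (hM : (img Pt).card ≤ M) :
    P.H Pt ≤ Real.log M := by
  classical
  have hMpos : 0 < M := img_card_pos P Pt hM
  have hM' : (0 : ℝ) < M := by exact_mod_cast hMpos
  have h1 := P.gibbs Pt (fun _ => 1 / (M : ℝ)) (fun _ => by positivity) (by
    rw [Finset.sum_const, nsmul_eq_mul, mul_one_div]
    exact div_le_one_of_le₀ (by exact_mod_cast hM) hM'.le) (fun _ _ => by positivity)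
  rw [P.ex_const, one_div, Real.log_inv, neg_neg] at h1
  exact h1

/-- the mean of the inverse probability is the number of values -/
theorem ex_inv_le (P : Law Ω) (Pt : Ω → S) {M : ℕ} (hM : (img Pt).card ≤ M) :
    P.ex (fun ω => 1 / P.pr Pt (Pt ω)) ≤ M := by
  rw [P.ex_comp Pt (fun e => 1 / P.pr Pt e)]
  have h1 : ∑ e ∈ img Pt, P.pr Pt e * (1 / P.pr Pt e) ≤ ∑ _e ∈ img Pt, (1 : ℝ) := by
    refine Finset.sum_le_sum fun e _ => ?_
    rcases (P.pr_nonneg Pt e).eq_or_lt with h0 | h0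
    · rw [← h0, zero_mul]
      exact zero_le_one
    · rw [mul_one_div, div_self h0.ne']
  refine h1.trans ?_
  rw [Finset.sum_const, nsmul_eq_mul, mul_one]
  exact_mod_cast hM

/-- **selection of a value of `Pt`**, event and averages -/
theorem selGen (P : Law Ω) (Pt : Ω → S) (A : S → Prop) (s : Finset ι) (F : ι → S → ℝ) (c : ι → ℝ)
    {g : ℝ} (hg : 0 < g)
    (hF0 : ∀ j ∈ s, ∀ ω, 0 < P.w ω → 0 ≤ F j (Pt ω)) (hc : ∀ j ∈ s, 0 < c j)
    (hF : ∀ j ∈ s, P.ex (fun ω => F j (Pt ω)) ≤ c j) (hA : g ≤ prE P (fun ω => A (Pt ω))) :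
    ∃ ω, 0 < P.w ω ∧ A (Pt ω) ∧ ∀ j ∈ s, F j (Pt ω) ≤ (s.card + 1) * c j / g := by
  classical
  by_contra hcon
  push Not at hcon
  set G : Ω → ℝ := fun ω => ∑ j ∈ s, F j (Pt ω) / c j with hG
  have hG2 : ∀ ω, 0 < P.w ω → ∀ j ∈ s, 0 ≤ F j (Pt ω) / c j := fun ω hω j hj =>
    div_nonneg (hF0 j hj ω hω) (hc j hj).le
  have hG0 : ∀ ω, 0 < P.w ω → 0 ≤ G ω := fun ω hω => Finset.sum_nonneg (hG2 ω hω)
  have e1 : P.ex G ≤ s.card := by
    rw [hG, ex_sum' P s (fun j ω => F j (Pt ω) / c j)]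
    have b1 : ∑ j ∈ s, P.ex (fun ω => F j (Pt ω) / c j) ≤ ∑ _j ∈ s, (1 : ℝ) := by
      refine Finset.sum_le_sum fun j hj => ?_
      have : P.ex (fun ω => F j (Pt ω) / c j) = P.ex (fun ω => F j (Pt ω)) / c j := by
        unfold Law.ex
        rw [Finset.sum_div]
        exact Finset.sum_congr rfl fun ω _ => by ring
      rw [this]
      exact (div_le_one (hc j hj)).2 (hF j hj)
    refine b1.trans (le_of_eq ?_)
    rw [Finset.sum_const, nsmul_eq_mul, mul_one]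
  have e2 : ∀ ω, 0 < P.w ω → ((s.card : ℝ) + 1) / g * Law.ind (A (Pt ω)) ≤ G ω := by
    intro ω hω
    by_cases hAω : A (Pt ω)
    · rw [Law.ind_of hAω, mul_one]
      obtain ⟨j, hj, hj2⟩ := hcon ω hω hAω
      have a1 : ((s.card : ℝ) + 1) / g ≤ F j (Pt ω) / c j := by
        rw [le_div_iff₀ (hc j hj)]
        refine le_trans (le_of_eq ?_) hj2.le
        ring
      exact a1.trans (Finset.single_le_sum (f := fun j => F j (Pt ω) / c j) (hG2 ω hω) hj)
    · rw [Law.ind_not hAω, mul_zero]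
      exact hG0 ω hω
  have e3 := P.ex_mono e2
  have e4 : P.ex (fun ω => ((s.card : ℝ) + 1) / g * Law.ind (A (Pt ω))) =
      ((s.card : ℝ) + 1) / g * prE P (fun ω => A (Pt ω)) := by
    rw [prE_eq_ex]
    unfold Law.ex
    rw [Finset.mul_sum]
    exact Finset.sum_congr rfl fun ω _ => by ring
  have e5 : (s.card : ℝ) + 1 ≤ ((s.card : ℝ) + 1) / g * prE P (fun ω => A (Pt ω)) := by
    have h1 : (0 : ℝ) ≤ s.card := Nat.cast_nonneg _
    calc (s.card : ℝ) + 1 = ((s.card : ℝ) + 1) / g * g := by field_simp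
      _ ≤ _ := mul_le_mul_of_nonneg_left hA (by positivity)
  rw [e4] at e3
  linarith

/-- domination of the conditioned law -/
theorem cond_dom (P : Law Ω) (C : Ω → S) (z : S) (hz : 0 < P.pr C z) (ω : Ω) :
    P.pr C z * (P.cond C z).w ω ≤ P.w ω := by
  classical
  rw [P.cond_w C z hz]
  split_ifs
  · rw [mul_div_cancel₀ _ hz.ne']
  · rw [mul_zero]
    exact P.nn ω

/-- expectation as average over the values of `C` -/
theorem ex_cond_sum (P : Law Ω) (f : Ω → ℝ) (C : Ω → S) :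
    ∑ z ∈ img C, P.pr C z * (P.cond C z).ex f = P.ex f := by
  unfold Law.ex
  simp only [Finset.mul_sum]
  rw [Finset.sum_comm]
  refine Finset.sum_congr rfl fun ω _ => ?_
  rw [← cond_avg P C ω, Finset.sum_mul]
  exact Finset.sum_congr rfl fun z _ => by ring

end sel

/-! ### the functional -/

section fun_

variable {Ω : Type} [Fintype Ω] {γ : Type} {c lam k : ℝ}

theorem ex_dsh_nonneg (P : Law Ω) (W : Ω → Cbx) (e : Ω → ℕ × ℕ) : 0 ≤ P.ex (fun ω => dsh (W ω) (e ω)) :=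
  ex_nonneg' P fun ω _ => by unfold dsh; positivity

theorem valX0 (P : Law Ω) (l : Ω → Ry) (t : Ω → ℝ) (C : Ω → γ) (a : ℕ) (e : Ω → ℕ × ℕ) (W : Ω → Cbx) :
    valX lam k 0 P l t C a e W = val lam P l t C a W - k * P.ex (fun ω => dsh (W ω) (e ω)) := by
  unfold valX
  rw [zero_mul, add_zero]

theorem xSet0_bdd (h0 : 0 ≤ lam) (h1 : lam ≤ 1) (hk : 0 ≤ k) (P : Law Ω) (l : Ω → Ry) (t : Ω → ℝ) (C : Ω → γ)
    (e : Ω → ℕ × ℕ) (L a : ℕ) : BddAbove (xSet c lam k 0 P l t C e L a) := by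
  refine ⟨P.H l + 3 * a * Real.log 2 + 4 * ((L : ℝ) - a) * Real.log 2, ?_⟩
  rintro v ⟨Ω', _, P', π, W, g1, g2, rfl⟩
  have h3 := val_le_H (C := fun ω => C (π ω)) h0 h1 g2
  have h4 : P'.H (fun ω => l (π ω)) = P.H l := Stk.H_law_aux P' P π g1 l
  rw [h4] at h3
  rw [valX0]
  have h5 := mul_nonneg hk (ex_dsh_nonneg P' W (fun ω => e (π ω)))
  linarith

theorem xSet_ne (La : ℝ) (hc : 0 ≤ c) {L a : ℕ} (ha : a ≤ L) (P : Law Ω) (l : Ω → Ry) (t : Ω → ℝ) (C : Ω → γ)
    (e : Ω → ℕ × ℕ) : (xSet c lam k La P l t C e L a).Nonempty :=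
  ⟨_, Ω, inferInstance, P, id,
    fun ω => ⟨0, 1, 1, 0, 0, (bl a (l ω) (t ω)).y, (bl a (l ω) (t ω)).s, (bl a (l ω) (t ω)).z⟩,
    Stk.pr_id P, fun ω _ => self_LbOk hc ha (l ω) (t ω), rfl⟩

theorem XX0_near (h : 0 ≤ c) {L a : ℕ} (ha : a ≤ L) (P : Law Ω) (l : Ω → Ry) (t : Ω → ℝ) (C : Ω → γ)
    (e : Ω → ℕ × ℕ) :
    ∃ (Ω' : Type) (_ : Fintype Ω') (P' : Law Ω') (π : Ω' → Ω) (W : Ω' → Cbx),
      (∀ ω, P'.pr π ω = P.w ω) ∧ (∀ ω, 0 < P'.w ω → LbOk c L a (W ω) (l (π ω)) (t (π ω))) ∧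
      XX c lam k 0 P l t C e L a - 1 ≤
        valX lam k 0 P' (fun ω => l (π ω)) (fun ω => t (π ω)) (fun ω => C (π ω)) a (fun ω => e (π ω)) W := by
  obtain ⟨v, ⟨Ω', i, P', π, W, g1, g2, rfl⟩, h3⟩ := exists_lt_of_lt_csSup
    (xSet_ne (lam := lam) (k := k) 0 h ha P l t C e) (sub_one_lt (XX c lam k 0 P l t C e L a))
  exact ⟨Ω', i, P', π, W, g1, g2, h3.le⟩

theorem valX0_le_XX (h0 : 0 ≤ lam) (h1 : lam ≤ 1) (hk : 0 ≤ k) {P : Law Ω} {l : Ω → Ry} {t : Ω → ℝ} {C : Ω → γ}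
    {e : Ω → ℕ × ℕ} {L a : ℕ} {Ω' : Type} [Fintype Ω'] {P' : Law Ω'} {π : Ω' → Ω} {W : Ω' → Cbx}
    (g1 : ∀ ω, P'.pr π ω = P.w ω) (g2 : ∀ ω, 0 < P'.w ω → LbOk c L a (W ω) (l (π ω)) (t (π ω))) :
    valX lam k 0 P' (fun ω => l (π ω)) (fun ω => t (π ω)) (fun ω => C (π ω)) a (fun ω => e (π ω)) W ≤
      XX c lam k 0 P l t C e L a :=
  le_csSup (xSet0_bdd h0 h1 hk P l t C e L a) ⟨Ω', inferInstance, P', π, W, g1, g2, rfl⟩

/-- the functional is at least the average over the values of a variable (up to 1) -/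
theorem XX0_cond_sum (hc : 0 ≤ c) (h0 : 0 ≤ lam) (h1 : lam ≤ 1) (hk : 0 ≤ k) (P : Law Ω) (l : Ω → Ry) (t : Ω → ℝ)
    (C : Ω → γ) (e : Ω → ℕ × ℕ) {L a : ℕ} (ha : a ≤ L) {S : Type} (Z : Ω → S) :
    ∑ z ∈ img Z, P.pr Z z * XX c lam k 0 (P.cond Z z) l t C e L a ≤ XX c lam k 0 P l t C e L a + 1 := by
  classical
  have hnear := fun z : {z // z ∈ img Z} => XX0_near (c := c) (lam := lam) (k := k) hc ha (P.cond Z z.1) l t C e
  choose Ω' iF Q π W g1 g2 g3 using hnear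
  have a0 : ∀ z : {z // z ∈ img Z}, 0 ≤ P.pr Z z.1 := fun z => P.pr_nonneg _ _
  have a1 : ∑ z : {z // z ∈ img Z}, P.pr Z z.1 = 1 := by
    rw [Finset.sum_coe_sort (img Z) (fun z => P.pr Z z)]
    exact P.sum_pr_image Z
  set M : Law (Σ z, Ω' z) := sumL (fun z : {z // z ∈ img Z} => P.pr Z z.1) a0 a1 Q with hM
  have hMw : ∀ p : (Σ z, Ω' z), M.w p = P.pr Z p.1.1 * (Q p.1).w p.2 := fun p => rfl
  set ρ : (Σ z, Ω' z) → Ω := fun p => π p.1 p.2 with hρ
  set W' : (Σ z, Ω' z) → Cbx := fun p => W p.1 p.2 with hW'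
  have hpos : ∀ p : (Σ z, Ω' z), 0 < M.w p → 0 < P.pr Z p.1.1 ∧ 0 < (Q p.1).w p.2 := by
    intro p hp
    rw [hMw] at hp
    have b1 := P.pr_nonneg Z p.1.1
    have b2 := (Q p.1).nn p.2
    constructor
    · rcases b1.eq_or_lt with h2 | h2
      · rw [← h2, zero_mul] at hp
        exact absurd hp (lt_irrefl 0)
      · exact h2
    · rcases b2.eq_or_lt with h2 | h2
      · rw [← h2, mul_zero] at hp
        exact absurd hp (lt_irrefl 0)
      · exact h2
  have hpr : ∀ ω, M.pr ρ ω = P.w ω := by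
    intro ω
    rw [hM, sumL_pr]
    have e : ∀ z : {z // z ∈ img Z}, (Q z).pr (fun ω' => ρ ⟨z, ω'⟩) ω = (P.cond Z z.1).w ω :=
      fun z => g1 z ω
    simp only [e]
    rw [Finset.sum_coe_sort (img Z) (fun z => P.pr Z z * (P.cond Z z).w ω)]
    exact cond_avg P Z ω
  have hlab : ∀ p, 0 < M.w p → LbOk c L a (W' p) (l (ρ p)) (t (ρ p)) := fun p hp =>
    g2 p.1 p.2 (hpos p hp).2
  have hle := valX0_le_XX (c := c) (P := P) (l := l) (t := t) (C := C) (e := e) (L := L) (a := a) h0 h1 hk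
    (P' := M) (π := ρ) (W := W') hpr hlab
  -- the value on the sum
  have hge : ∑ z : {z // z ∈ img Z}, P.pr Z z.1 *
      valX lam k 0 (Q z) (fun ω => l (π z ω)) (fun ω => t (π z ω)) (fun ω => C (π z ω)) a
        (fun ω => e (π z ω)) (W z) ≤
      valX lam k 0 M (fun ω => l (ρ ω)) (fun ω => t (ρ ω)) (fun ω => C (ρ ω)) a (fun ω => e (ρ ω)) W' := by
    have e1 : Stk.hc M (fun p => l (ρ p)) (fun p => ((W' p, fl1 a (t (ρ p)), C (ρ p)), p.1)) ≤
        Stk.hc M (fun p => l (ρ p)) (fun p => (W' p, fl1 a (t (ρ p)), C (ρ p))) :=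
      Stk.hc_mono_right M _ fun p p' _ _ e => (Prod.mk.inj e).1
    have e2 := sumL_hc (a := fun z : {z // z ∈ img Z} => P.pr Z z.1) (h0 := a0) (h1 := a1)
      (Q := Q) (fun p => l (ρ p)) (fun p => (W' p, fl1 a (t (ρ p)), C (ρ p)))
    have e3 := sumL_ex (a := fun z : {z // z ∈ img Z} => P.pr Z z.1) (h0 := a0) (h1 := a1)
      (Q := Q) (fun p => (3 + lam) * Real.log (W' p).u2 + (1 - lam) * Real.log (W' p).u1)
    have e4 := sumL_ex (a := fun z : {z // z ∈ img Z} => P.pr Z z.1) (h0 := a0) (h1 := a1)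
      (Q := Q) (fun p => dsh (W' p) (e (ρ p)))
    rw [← hM] at e2 e3 e4
    have e5 : ∑ z : {z // z ∈ img Z}, P.pr Z z.1 *
        valX lam k 0 (Q z) (fun ω => l (π z ω)) (fun ω => t (π z ω)) (fun ω => C (π z ω)) a
        (fun ω => e (π z ω)) (W z) =
        ∑ z : {z // z ∈ img Z}, P.pr Z z.1 * Stk.hc (Q z) (fun ω => l (ρ ⟨z, ω⟩))
          (fun ω => (W' ⟨z, ω⟩, fl1 a (t (ρ ⟨z, ω⟩)), C (ρ ⟨z, ω⟩))) + 3 * a * Real.log 2 -
        ∑ z : {z // z ∈ img Z}, P.pr Z z.1 *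
          (Q z).ex (fun ω => (3 + lam) * Real.log (W' ⟨z, ω⟩).u2 + (1 - lam) * Real.log (W' ⟨z, ω⟩).u1) -
        k * ∑ z : {z // z ∈ img Z}, P.pr Z z.1 * (Q z).ex (fun ω => dsh (W' ⟨z, ω⟩) (e (ρ ⟨z, ω⟩))) := by
      have f0 : (3 * a * Real.log 2 : ℝ) = ∑ z : {z // z ∈ img Z}, P.pr Z z.1 * (3 * a * Real.log 2) := by
        rw [← Finset.sum_mul, a1, one_mul]
      rw [f0, Finset.mul_sum, ← Finset.sum_add_distrib, ← Finset.sum_sub_distrib, ← Finset.sum_sub_distrib]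
      refine Finset.sum_congr rfl fun z _ => ?_
      rw [valX0]
      unfold val
      simp only [hW', hρ]
      ring
    rw [e5, valX0]
    unfold val
    rw [e3, e4]
    linarith [e1, e2]
  have hav : ∑ z ∈ img Z, P.pr Z z * XX c lam k 0 (P.cond Z z) l t C e L a - 1 ≤
      ∑ z : {z // z ∈ img Z}, P.pr Z z.1 *
      valX lam k 0 (Q z) (fun ω => l (π z ω)) (fun ω => t (π z ω)) (fun ω => C (π z ω)) a
        (fun ω => e (π z ω)) (W z) := by
    have e' : ∑ z ∈ img Z, P.pr Z z * XX c lam k 0 (P.cond Z z) l t C e L a - 1 =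
        ∑ z : {z // z ∈ img Z}, P.pr Z z.1 * (XX c lam k 0 (P.cond Z z.1) l t C e L a - 1) := by
      simp only [mul_sub, mul_one, Finset.sum_sub_distrib]
      rw [a1, Finset.sum_coe_sort (img Z)
        (fun z => P.pr Z z * XX c lam k 0 (P.cond Z z) l t C e L a)]
    rw [e']
    exact Finset.sum_le_sum fun z _ => mul_le_mul_of_nonneg_left (g3 z) (a0 z)
  linarith

/-- value of the top label minus the price of the law -/
noncomputable def Phi (c lam N k : ℝ) (P : Law Ω) (l : Ω → Ry) (t : Ω → ℝ) (C : Ω → γ) (L h : ℕ) (e0 : ℕ × ℕ)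
    (W : Ω → Cbx) : ℝ :=
  val lam P l t C h W - XX c lam k 0 P l t C (fun _ => e0) L 0 - N * Dd P l t C h

/-- average of the functional over the values of `Z` -/
theorem Phi_avg {N : ℝ} (hc : 0 ≤ c) (h0 : 0 ≤ lam) (h1 : lam ≤ 1) (hk : 0 ≤ k) (hN : 0 ≤ N) (P : Law Ω)
    (l : Ω → Ry) (t : Ω → ℝ) (C : Ω → γ) (L h : ℕ) (e0 : ℕ × ℕ) (W : Ω → Cbx) {S : Type} (Z : Ω → S) :
    Phi c lam N k P l t C L h e0 W - ((N + 1) * P.H Z + 1) ≤
      P.ex (fun ω => Phi c lam N k (P.cond Z (Z ω)) l t C L h e0 W) := by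
  rw [P.ex_comp Z (fun z => Phi c lam N k (P.cond Z z) l t C L h e0 W)]
  -- the entropy of the ray
  have b1 : Stk.hc P l (fun ω => (W ω, fl1 h (t ω), C ω)) ≤
      (∑ z ∈ img Z, P.pr Z z * Stk.hc (P.cond Z z) l (fun ω => (W ω, fl1 h (t ω), C ω))) + P.H Z := by
    rw [← hc_cond_sum]
    have a1 := Stk.hc_le_add' P l Z (fun ω => (W ω, fl1 h (t ω), C ω))
    have a2 := Stk.hc_le_H P Z (fun ω => (W ω, fl1 h (t ω), C ω))
    have a3 : Stk.hc P l (fun ω => (Z ω, (W ω, fl1 h (t ω), C ω))) ≤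
        Stk.hc P l (fun ω => ((W ω, fl1 h (t ω), C ω), Z ω)) :=
      Stk.hc_mono_right P _ fun ω ω' _ _ e => by
        simp only [Prod.mk.injEq] at e ⊢
        exact ⟨e.2, e.1⟩
    linarith
  have b2 := ex_cond_sum P (fun ω => (3 + lam) * Real.log (W ω).u2 + (1 - lam) * Real.log (W ω).u1) Z
  have b3 := XX0_cond_sum hc h0 h1 hk P l t C (fun _ => e0) (Nat.zero_le L) Z
  have b4 : ∑ z ∈ img Z, P.pr Z z * Dd (P.cond Z z) l t C h ≤ Dd P l t C h + P.H Z := by
    have a1 := Stk.hc_le_add' P (fun ω => fl1 h (t ω)) Z (fun ω => (l ω, C ω))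
    have a2 := Stk.hc_le_H P Z (fun ω => (l ω, C ω))
    have a3 : Stk.hc P (fun ω => fl1 h (t ω)) (fun ω => (Z ω, (l ω, C ω))) ≤
        Stk.hc P (fun ω => fl1 h (t ω)) (fun ω => ((l ω, C ω), Z ω)) :=
      Stk.hc_mono_right P _ fun ω ω' _ _ e => by
        simp only [Prod.mk.injEq] at e ⊢
        exact ⟨e.2, e.1⟩
    have a4 := hc_cond_sum P (fun ω => fl1 h (t ω)) (fun ω => (l ω, C ω)) Z
    have a5 : ∑ z ∈ img Z, P.pr Z z * Dd (P.cond Z z) l t C h = h * Real.log 2 -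
        ∑ z ∈ img Z, P.pr Z z * Stk.hc (P.cond Z z) (fun ω => fl1 h (t ω)) (fun ω => (l ω, C ω)) := by
      have f0 : (h * Real.log 2 : ℝ) = ∑ z ∈ img Z, P.pr Z z * (h * Real.log 2) := by
        rw [← Finset.sum_mul, P.sum_pr_image Z, one_mul]
      rw [f0, ← Finset.sum_sub_distrib]
      refine Finset.sum_congr rfl fun z _ => ?_
      unfold Dd
      ring
    rw [a5]
    unfold Dd
    linarith
  have b5 : ∑ z ∈ img Z, P.pr Z z * Phi c lam N k (P.cond Z z) l t C L h e0 W =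
      (∑ z ∈ img Z, P.pr Z z * Stk.hc (P.cond Z z) l (fun ω => (W ω, fl1 h (t ω), C ω))) +
      3 * h * Real.log 2 -
      (∑ z ∈ img Z, P.pr Z z *
        (P.cond Z z).ex (fun ω => (3 + lam) * Real.log (W ω).u2 + (1 - lam) * Real.log (W ω).u1)) -
      (∑ z ∈ img Z, P.pr Z z * XX c lam k 0 (P.cond Z z) l t C (fun _ => e0) L 0) -
      N * ∑ z ∈ img Z, P.pr Z z * Dd (P.cond Z z) l t C h := by
    have f0 : (3 * h * Real.log 2 : ℝ) = ∑ z ∈ img Z, P.pr Z z * (3 * h * Real.log 2) := by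
      rw [← Finset.sum_mul, P.sum_pr_image Z, one_mul]
    rw [f0, Finset.mul_sum, ← Finset.sum_add_distrib, ← Finset.sum_sub_distrib, ← Finset.sum_sub_distrib,
      ← Finset.sum_sub_distrib]
    refine Finset.sum_congr rfl fun z _ => ?_
    unfold Phi val
    ring
  rw [b5, b2]
  have b6 := mul_le_mul_of_nonneg_left b4 hN
  unfold Phi val
  nlinarith

end fun_

end H565

open H565

/-- near-extremality in terms of the functional -/
theorem NEx.phi {c lam N k β d : ℝ} {Ω : Type} [Fintype Ω] {γ : Type} {P : Law Ω} {l : Ω → Ry} {t : Ω → ℝ} {C : Ω → γ}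
    {L h q : ℕ} {W : Ω → Cbx} (H : NEx c lam N k β d P l t C L h q W) :
    (β - d) * h * Real.log 2 ≤ Phi c lam N k P l t C L h (0, q) W := by
  have := H.ex
  unfold Phi
  linarith

/-- a law with the same support -/
theorem NEx.of_phi {c lam N k β d d' : ℝ} {Ω : Type} [Fintype Ω] {γ : Type} {P Q : Law Ω} {l : Ω → Ry} {t : Ω → ℝ}
    {C : Ω → γ} {L h q : ℕ} {W : Ω → Cbx} (H : NEx c lam N k β d P l t C L h q W)
    (hQ : ∀ ω, 0 < Q.w ω → 0 < P.w ω) (hphi : (β - d') * h * Real.log 2 ≤ Phi c lam N k Q l t C L h (0, q) W) :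
    NEx c lam N k β d' Q l t C L h q W where
  ok ω hω := H.ok ω (hQ ω hω)
  hL := H.hL
  lb ω hω := H.lb ω (hQ ω hω)
  ex := by
    unfold Phi at hphi
    linarith

/-- **selection of one word for near-extremal systems** : event `A` of probability `≥ g` on the words, finitely many
nonnegative functions `F j` of the words with averages `≤ cs j` -/
theorem nex_sel {c lam N k β β' : ℝ} (hc : 1 ≤ c) (h0 : 0 ≤ lam) (h1 : lam ≤ 1) (hN : 0 ≤ N) (hk : 0 ≤ k)
    (hββ : β ≤ β') (hF : FIX c lam N k β') {ε : ℝ} (hε : 0 < ε) :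
    ∃ K : ℝ, 0 ≤ K ∧ ∀ (Ω : Type) [Fintype Ω] (γ : Type) (P : Law Ω) (l : Ω → Ry) (t : Ω → ℝ) (C : Ω → γ)
      (L h q : ℕ) (W : Ω → Cbx) (d : ℝ), NEx c lam N k β d P l t C L h q W →
      ∀ (S ι : Type) (Pt : Ω → S) (A : S → Prop) (s : Finset ι) (F : ι → S → ℝ) (cs : ι → ℝ)
        (g : ℝ) (M : ℕ), 0 < g → (img Pt).card ≤ M →
        (∀ j ∈ s, ∀ ω, 0 < P.w ω → 0 ≤ F j (Pt ω)) → (∀ j ∈ s, 0 < cs j) →
        (∀ j ∈ s, P.ex (fun ω => F j (Pt ω)) ≤ cs j) → g ≤ prE P (fun ω => A (Pt ω)) →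
        ∀ d' : ℝ, (s.card + 3) / g * ((β' - β + d + ε) * h * Real.log 2 + (N + 1) * Real.log M + K) ≤
            d' * h * Real.log 2 →
        ∃ ω, 0 < P.w ω ∧ A (Pt ω) ∧ g / ((s.card + 3) * M) ≤ P.pr Pt (Pt ω) ∧
          (∀ j ∈ s, F j (Pt ω) ≤ (s.card + 3) * cs j / g) ∧
          NEx c lam N k β d' (P.cond Pt (Pt ω)) l t C L h q W := by
  classical
  obtain ⟨K, hK⟩ := hF ε hε
  refine ⟨max K 0 + 2, by positivity, ?_⟩
  intro Ω _ γ P l t C L h q W d hP S ι Pt A s F cs g M hg hM hF0 hcs hFa hA d' hd'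
  have hlog : 0 < Real.log 2 := Real.log_pos (by norm_num)
  have hMpos : 0 < M := img_card_pos P Pt hM
  have hMr : (0 : ℝ) < M := by exact_mod_cast hMpos
  have hh : (0 : ℝ) ≤ h := Nat.cast_nonneg _
  have hc0 : 0 ≤ c := by linarith
  set F₁ : ℝ := (β' + ε) * h * Real.log 2 + max K 0 with hF₁
  set D : ℝ := (β' - β + d + ε) * h * Real.log 2 + (N + 1) * Real.log M + (max K 0 + 2) with hD
  have hup : ∀ ω, 0 < P.w ω → Phi c lam N k (P.cond Pt (Pt ω)) l t C L h (0, q) W ≤ F₁ := by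
    intro ω _
    have hsy : SyOk (P.cond Pt (Pt ω)) l t := fun ω' hω' => hP.ok ω' (cond_supp P Pt _ hω')
    have a1 := hK Ω γ (P.cond Pt (Pt ω)) l t C L h (0, q) W (by have := hP.hL; omega) hsy (by
      intro ω' hω'
      obtain ⟨b1, b2, b3⟩ := hP.lb ω' (cond_supp P Pt _ hω')
      refine ⟨b1, ?_, b3⟩
      rw [b2, pow_zero])
    have a2 := le_max_left K 0
    unfold Phi
    rw [hF₁]
    linarith
  have hav : P.ex (fun ω => F₁ - Phi c lam N k (P.cond Pt (Pt ω)) l t C L h (0, q) W) ≤ D - 1 := by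
    rw [P.ex_sub, P.ex_const]
    have a1 := Phi_avg (c := c) (lam := lam) (k := k) (N := N) hc0 h0 h1 hk hN P l t C L h (0, q) W Pt
    have a2 : (N + 1) * P.H Pt ≤ (N + 1) * Real.log M :=
      mul_le_mul_of_nonneg_left (H_le_card P Pt hM) (by linarith)
    have a3 := hP.phi
    have a4 : (β' + ε) * h * Real.log 2 - (β - d) * h * Real.log 2 = (β' - β + d + ε) * h * Real.log 2 := by
      ring
    rw [hF₁, hD]
    linarith
  have hav0 : 0 ≤ P.ex (fun ω => F₁ - Phi c lam N k (P.cond Pt (Pt ω)) l t C L h (0, q) W) :=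
    H565.ex_nonneg' P fun ω hω => sub_nonneg.2 (hup ω hω)
  have hD0 : 0 < D := by linarith
  obtain ⟨ω, w1, w2, w4⟩ := H565.selGen P Pt A (Finset.insertNone (Finset.insertNone s))
    (fun o e => o.elim (F₁ - Phi c lam N k (P.cond Pt e) l t C L h (0, q) W)
      (fun o' => o'.elim (1 / P.pr Pt e) (fun j => F j e)))
    (fun o => o.elim D (fun o' => o'.elim (M : ℝ) cs)) hg (by
      intro o ho ω hω
      cases o with
      | none => exact sub_nonneg.2 (hup ω hω)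
      | some o' =>
        cases o' with
        | none => exact div_nonneg zero_le_one (P.pr_nonneg _ _)
        | some j =>
          exact hF0 j (Finset.some_mem_insertNone.1 (Finset.some_mem_insertNone.1 ho)) ω hω) (by
      intro o ho
      cases o with
      | none => exact hD0
      | some o' =>
        cases o' with
        | none => exact hMr
        | some j =>
          exact hcs j (Finset.some_mem_insertNone.1 (Finset.some_mem_insertNone.1 ho))) (by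
      intro o ho
      cases o with
      | none =>
        show P.ex (fun ω => F₁ - Phi c lam N k (P.cond Pt (Pt ω)) l t C L h (0, q) W) ≤ D
        linarith
      | some o' =>
        cases o' with
        | none => exact H565.ex_inv_le P Pt hM
        | some j =>
          exact hFa j (Finset.some_mem_insertNone.1 (Finset.some_mem_insertNone.1 ho))) hA
  have hcard : (((Finset.insertNone (Finset.insertNone s)).card : ℕ) : ℝ) + 1 = s.card + 3 := by
    rw [Finset.card_insertNone, Finset.card_insertNone]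
    push_cast
    ring
  rw [hcard] at w4
  have hs0 : (0 : ℝ) ≤ s.card := Nat.cast_nonneg _
  refine ⟨ω, w1, w2, ?_, fun j hj => w4 (some (some j))
    (Finset.some_mem_insertNone.2 (Finset.some_mem_insertNone.2 hj)),
    hP.of_phi (fun ω' hω' => cond_supp P Pt _ hω') ?_⟩
  · have w5 := w4 (some none) (Finset.some_mem_insertNone.2 Finset.none_mem_insertNone)
    have w6 : 1 / P.pr Pt (Pt ω) ≤ (s.card + 3) * M / g := w5
    have hp := P.pr_pos Pt w1
    rw [div_le_iff₀ (by positivity)]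
    rw [div_le_div_iff₀ hp hg] at w6
    linarith
  · have w5 := w4 none Finset.none_mem_insertNone
    have w6 : F₁ - Phi c lam N k (P.cond Pt (Pt ω)) l t C L h (0, q) W ≤ (s.card + 3) * D / g := w5
    have w7 : β * h * Real.log 2 ≤ F₁ := by
      have e1 : 0 ≤ ε * h * Real.log 2 := by positivity
      have e2 : β * h * Real.log 2 ≤ β' * h * Real.log 2 := by
        have := mul_le_mul_of_nonneg_right hββ (mul_nonneg hh hlog.le)
        linarith [this, mul_assoc β (h : ℝ) (Real.log 2), mul_assoc β' (h : ℝ) (Real.log 2)]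
      have e3 := le_max_right K 0
      rw [hF₁]
      linarith [show (β' + ε) * h * Real.log 2 = β' * h * Real.log 2 + ε * h * Real.log 2 by ring]
    have e4 : (s.card + 3) * D / g = (s.card + 3) / g * D := by ring
    have e5 : (β - d') * h * Real.log 2 = β * h * Real.log 2 - d' * h * Real.log 2 := by ring
    rw [e5]
    rw [e4] at w6
    linarith

end Vale.Agent.P106.U
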