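import Vale.Agent.P106.U.H565.RunD

/-!
# P106 / U / H565 : the fields of the concrete run (helper565)

* `C2.Hyp` : the hypotheses at the cap (start data, numbers, closure `GC`, compatibility `cmp`, past and price of the letter).
* `hasU` : helper449's `HasU`;  `path` : helper823's `Path`;  `hasW` : helper824's `HasW`;  `ok` : **`S3.Run.Ok`**.
-/

set_option autoImplicit false

namespace Vale.Agent.P106.U.H565

open Finset Vale.Agent.P127 Vale.Agent.P127.Stk Vale.Agent.P127.U Vale.Agent.P106.W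
open Vale.Agent.P106.K (Ry RyOk bl Bin)
open Vale.Agent.P127.U.CellD (q2 rd)
open Vale.Agent.P106.U Vale.Agent.P106.U.H449 Vale.Agent.P106.U.StripL Vale.Agent.P106.U.StripE
open Vale.Agent.P106.U.LinkR Vale.Agent.P106.U.InsL Vale.Agent.P106.U.InpC
open Vale.Agent.P106.U.H823.NumW Vale.Agent.P106.U.H823.PathNum

/-- **facts before the words**, at every point of the support; `Rm` digits of the common normal -/
structure C0.St {Ω : Type} [Fintype Ω] (c : C0 Ω) (Rm : ℕ) : Prop where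
  m6 : 6 ≤ c.I.m
  sys : ∀ ω, 0 < c.P.w ω → RyOk (c.l ω) ∧ 0 ≤ c.t ω ∧ c.t ω ≤ 1
  fw : ∀ ω, 0 < c.P.w ω → H465.FWn.FWok c.θ c.I.h c.I.q Rm (c.W ω) (c.l ω) (c.t ω)
  μR : 2 * (c.I.m * c.I.B) + 2 ≤ Rm
  s0 : c.d0.s0 = 0
  a0 : c.d0.a = 0
  k0 : c.d0.k = c.I.m * c.I.kb
  al0 : |c.d0.al| ≤ 1
  in0 : ∀ ω, c.d0.In (c.tW ω) (c.κ ω)
  NS : H823.Few c.P (fun ω => fl1 (c.I.m * c.I.kb) (c.pp ω)) c.l 3
  Md2 : c.I.pm.M + 2 ≤ c.Md
  r0 : 3888 * q2 (c.I.m * (c.I.kb - 2)) ≤ 1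

namespace C2

variable {Ω : Type} [Fintype Ω] (c : C2 Ω)

/-- **hypotheses at the cap**; `cc` threshold of the closure, `Ac` level of compatibility, `rc` its precision -/
structure Hyp (Rm : ℕ) (cc : ℝ) (Ac rc : ℕ) : Prop where
  st : c.toC0.St Rm
  x1 : 0 < c.x1
  x2 : 0 < c.x2
  N0s : 4 + c.s ≤ c.N0
  J1 : A1 c.I.M + 1 ≤ c.I.J
  J3 : A3 0 c.I.M c.s + 1 ≤ c.I.J
  JM : (3 + c.s) * (c.Md + 1) ≤ c.I.J
  ps : 2 + c.s ≤ c.ps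
  /-- the closure -/
  gc : GC c.I.m c.d0 c.rule c.P c.I.pm.n c.E1 c.Q c.I.ha c.G c.RC c.g cc c.s
  /-- compatibility -/
  li : ∀ i, c.D.li i ≤ Ac
  Aca : Ac ≤ c.I.A'b
  cmp : ∀ ω, 0 < c.Q.w ω → |(- gAc c.I.m c.d0 c.g Ac ω) - (c.FW ω).al| * q2 c.I.num.A' ≤ q2 rc
  crc : ∀ i, c.D.lk i ≤ rc
  rq : ∀ i, c.D.lk i ≤ c.I.q

variable {c}

/-- the support of `Q` -/
theorem sup {ω : Ω} (hω : 0 < c.Q.w ω) : 0 < c.P.w ω := (mul_pos c.cn2.hq hω).trans_le (c.cn2.dom ω)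

variable {Rm : ℕ} {cc : ℝ} {Ac rc : ℕ} (H : c.Hyp Rm cc Ac rc)

include H

theorem has : Has c.D c.run c.num :=
  H823.NumG.has_ofG c.good Dt.is c.cn2 c.w2 H.N0s H.J1 H.J3 H.ps rfl rfl rfl rfl rfl rfl rfl rfl rfl rfl rfl rfl rfl rfl rfl

theorem path : c.run.Path c.num :=
  H823.NumG.path_ofG c.good Dt.is c.cn2 c.w2 H.N0s H.J1 H.J3 H.ps rfl rfl rfl rfl rfl rfl rfl rfl rfl rfl rfl rfl rfl rfl rfl

theorem rhy : Ray.Hy c.I.m c.I.kb c.d0 (fun ω => rd c.I.h (c.t ω)) (fun ω => (H786.Adp.FW c.θ c.I.h (c.W ω) (c.t ω)).ka)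
    (fun ω => H465.FWn.pW c.θ c.I.h (c.W ω) (c.l ω) (c.t ω)) c.l c.Md c.P c.I.pm c.thr c.E1 c.Q (c.x1 * c.x2) where
  s0 := H.st.s0
  a0 := H.st.a0
  k0 := H.st.k0
  in0 := H.st.in0
  m6 := H.st.m6
  good := c.good.pmG
  Md2 := H.st.Md2
  cn := c.cn2

theorem hasU : Ray.HasU c.I.m c.I.kb c.d0 (fun ω => rd c.I.h (c.t ω))
    (fun ω => (H786.Adp.FW c.θ c.I.h (c.W ω) (c.t ω)).ka)
    (fun ω => H465.FWn.pW c.θ c.I.h (c.W ω) (c.l ω) (c.t ω)) c.l c.Md c.P c.I.pm c.thr c.E1 c.Q (c.x1 * c.x2) c.D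
    c.run c.num where
  hy := rhy H
  has := has H
  κ2 := by have := c.good.kb3; omega
  Dm := rfl
  Dr := rfl
  Do := rfl
  DF := rfl
  DI := rfl
  DA := rfl
  DQ := rfl
  DB₁ := rfl
  DB₀ := rfl
  J := H.JM
  gap := fun i j hi hij hj => H823.NumG.tw_gapG c.good.pmG Dt.is c.cn2 c.w2 c.I.m c.I.rs 2 c.I.J c.good.m1 c.I.num.A
    c.I.num.QK hi hij hj
  eh := fun _ => rfl
  eQ := rfl
  ery := rfl
  eκ := rfl
  ep := rfl
  eU := rfl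
  eal := rfl
  eV := rfl

theorem hw : InpW.Hw c.D c.θ c.I.h c.I.q Rm c.I.num.A' (c.I.m * c.I.B) c.l c.t c.W c.I.m c.I.kb c.d0
    (OkW.eW c.I.m c.I.kb c.d0 c.θ c.I.h c.l c.t c.W c.Md c.P c.I.pm c.thr) c.P c.I.pm.n c.E1 c.Q (c.x1 * c.x2) c.I.ha
    c.G c.RC c.g cc c.s Ac rc where
  cn := c.cn2
  isl := (rhy H).isL'
  gc := H.gc
  m3 := by have := H.st.m6; omega
  κ2 := by have := c.good.kb3; omega
  k0 := H.st.k0
  a0 := H.st.a0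
  al0 := H.st.al0
  Dm := rfl
  Dr := rfl
  DR := fun _ _ => rfl
  li := H.li
  AA := by
    have h1 := H.Aca
    have h2 := c.good.Ab2
    omega
  mA := Nat.mul_le_mul_left _ H.Aca
  A'h := c.good.A'h
  fw := fun ω hω => H.st.fw ω (sup hω)
  μR := H.st.μR
  cmp := H.cmp
  crc := H.crc
  r0 := H.st.r0
  rq := H.rq

theorem hasW : OkW.HasW c.I.m c.I.kb c.d0 c.θ c.I.h c.I.q Rm c.I.num.A' (c.I.m * c.I.B) c.l c.t c.W c.Md c.P c.I.pm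
    c.thr c.E1 c.Q (c.x1 * c.x2) c.D c.I.ha c.G c.RC c.g cc c.s Ac rc c.o c.oK c.oG c.oN c.run c.num where
  U := hasU H
  w := hw H
  eθ := rfl
  eh := rfl
  eq := rfl
  et := rfl
  eW' := rfl
  eFW := rfl
  eC := rfl
  eG := rfl
  eA := rfl
  s2 := by
    have := H.ps
    show c.s + 2 ≤ c.ps
    omega

/-- **`S3.Run.Ok`** -/
theorem ok {K g' gU gR : ℝ} (hK : 648 ≤ K) (hc0 : 0 ≤ cc) (W0 : Fn c.Q (c.Fy c.b1) c.G)
    (prW : Stk.hc c.Q c.G (c.Fy c.b1) ≤ gU) (prT : 3 * PrT.LS.Lg 6 3 * ((c.D.n + c.I.J : ℕ) + 1) ≤ g')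
    (prU : Stk.hc c.run.Q (c.run.U 0) c.run.ry + ∑ i ∈ range (c.run.n + c.num.J), Stk.hc c.run.Q (c.run.U (i + 1))
      (fun ω => (c.run.Z i ω, fl1 (c.run.C.a (i + 1)) (c.run.t ω))) ≤ gR) (hg : gR ≤ gU) :
    c.run.Ok c.num K cc g' gU :=
  (hasW H).ok (path H) hK rfl hc0 (fun ω hω => H.st.sys ω (sup hω)) (mul_pos H.x1 H.x2)
    (fun ω => c.cn2.dom ω) W0 prW prT (prU.trans hg)

end C2

end Vale.Agent.P106.U.H565
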