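import Vale.Agent.P106.U.H101.OffS

/-!
# P106 / U / H565 : the square roots of the exceptional probabilities, summed over `d` (helper565)

`B` comes after `m0`, so the near terms of a row must be summed over `d ≤ B` without a factor `log B`.

* `sqW` : `∑_(d ≤ B) sq4 d / (d + 1)²`.
* `sqW_le` : `sqW ≤ (2 K'² N q2 (μ / 4) / t) o4 + 20 N t` for every `t > 0` (one record, `n + J + 1 ≤ N`).
-/

set_option autoImplicit false

namespace Vale.Agent.P106.U.H565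

open Finset Vale.Agent.P127 Vale.Agent.P127.Stk
open Vale.Agent.P127.U.CellD (q2 rd Nb q2_pos q2_le)
open Vale.Agent.P106.U.Cell Vale.Agent.P106.U.S3
open Vale.Agent.P106.U.H61.Ext2 Vale.Agent.P106.U.H101.Off

/-- `∑_(d < n) 1 / (d + 1)² ≤ 2` -/
theorem sum_sq_le (n : ℕ) : ∑ d ∈ range n, (1 : ℝ) / ((d : ℝ) + 1) ^ 2 ≤ 2 := by
  have key : ∀ n : ℕ, ∑ d ∈ range (n + 1), (1 : ℝ) / ((d : ℝ) + 1) ^ 2 ≤ 2 - 1 / ((n : ℝ) + 1) := by
    intro n
    induction n with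
    | zero => norm_num
    | succ n ih =>
      rw [Finset.sum_range_succ]
      have h1 : (1 : ℝ) / (((n + 1 : ℕ) : ℝ) + 1) ^ 2 ≤ 1 / ((n : ℝ) + 1) - 1 / (((n + 1 : ℕ) : ℝ) + 1) := by
        push_cast
        have e : (1 : ℝ) / ((n : ℝ) + 1) - 1 / ((n : ℝ) + 1 + 1) = 1 / (((n : ℝ) + 1) * ((n : ℝ) + 1 + 1)) := by
          field_simp
          ring
        rw [e]
        refine one_div_le_one_div_of_le (by positivity) ?_
        nlinarith [(Nat.cast_nonneg n : (0 : ℝ) ≤ n)]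
      linarith
  rcases n with _ | n
  · norm_num
  · have h1 := key n
    have h2 : (0 : ℝ) ≤ 1 / ((n : ℝ) + 1) := by positivity
    linarith

variable {Ω : Type} [Fintype Ω] {τ υ π : Type}

/-- **the square roots of one record**, all `d ≤ B` with the weights `1 / (d + 1)²` -/
noncomputable def sqW (R : Run Ω τ υ) (p : Run.Num) (B bS bV : ℕ) (F : Pf R π) (Vs Xs : Finset ℕ) (μ : ℕ) (K' : ℝ)
    (o : Fin 7 → ℝ) (o' : ℕ → ℝ) : ℝ :=
  ∑ d ∈ range (B + 1), sq4 R p B bS bV F Vs Xs μ K' o o' d / ((d : ℝ) + 1) ^ 2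

variable {R : Run Ω τ υ} {p : Run.Num} {B bS bV : ℕ} {F : Pf R π} {Vs Xs : Finset ℕ} {μ : ℕ} {K' : ℝ}
  {o : Fin 7 → ℝ} {o' : ℕ → ℝ}

theorem sq4_nonneg (d : ℕ) : 0 ≤ sq4 R p B bS bV F Vs Xs μ K' o o' d := by
  rw [sq4_eq]
  exact Finset.sum_nonneg fun _ _ => Real.sqrt_nonneg _

theorem sqW_nonneg : 0 ≤ sqW R p B bS bV F Vs Xs μ K' o o' :=
  Finset.sum_nonneg fun d _ => div_nonneg (sq4_nonneg d) (by positivity)

/-- one `d` -/
theorem sq4_le_sqW {d : ℕ} (hd : d ≤ B) : sq4 R p B bS bV F Vs Xs μ K' o o' d ≤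
    ((d : ℝ) + 1) ^ 2 * sqW R p B bS bV F Vs Xs μ K' o o' := by
  have h1 : sq4 R p B bS bV F Vs Xs μ K' o o' d / ((d : ℝ) + 1) ^ 2 ≤ sqW R p B bS bV F Vs Xs μ K' o o' :=
    Finset.single_le_sum (f := fun d : ℕ => sq4 R p B bS bV F Vs Xs μ K' o o' d / ((d : ℝ) + 1) ^ 2)
      (fun d _ => div_nonneg (sq4_nonneg d) (by positivity)) (Finset.mem_range.2 (by omega))
  rw [div_le_iff₀ (by positivity)] at h1
  linarith

/-- **one record** -/
theorem sqW_le (hm : 1 ≤ R.m) (hK : 0 < K') {N : ℝ} (hN : (R.n : ℝ) + p.J + 1 ≤ N) {t : ℝ} (ht : 0 < t) :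
    sqW R p B bS bV F Vs Xs μ K' o o' ≤
      2 * K' ^ 2 * N * q2 (μ / 4) / t * o4 R p B bS bV F Vs Xs μ K' o o' + 20 * N * t := by
  have q4 := q2_pos (μ / 4)
  have hN0 : 0 ≤ N := le_trans (by positivity) hN
  have h1 : ∀ d ∈ range (B + 1), sq4 R p B bS bV F Vs Xs μ K' o o' d / ((d : ℝ) + 1) ^ 2 ≤
      (sOff R p bS μ K' o + sL R μ K' o o' + (sK R p B bV F Vs Xs μ K' o o' d + sP R p B bV F Vs Xs μ K' o o' d)) / t *
        (1 / ((d : ℝ) + 1) ^ 2) + 10 * N * t * (1 / ((d : ℝ) + 1) ^ 2) := by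
    intro d _
    rw [sq4_eq, ← a4_eq, div_eq_mul_one_div, ← add_mul]
    refine mul_le_mul_of_nonneg_right ?_ (by positivity)
    have h2 : ∀ y ∈ I4 R p B F Vs Xs d, Real.sqrt (a4 R bS bV F μ K' o o' y) ≤ a4 R bS bV F μ K' o o' y / t + t := by
      intro y _
      have e2 := Real.sq_sqrt (a4_nonneg R bS bV F μ K' o o' y)
      have e3 := Real.sqrt_nonneg (a4 R bS bV F μ K' o o' y)
      rw [div_add' _ _ _ ht.ne', le_div_iff₀ ht]
      nlinarith [sq_nonneg (Real.sqrt (a4 R bS bV F μ K' o o' y) - t)]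
    refine (Finset.sum_le_sum h2).trans ?_
    rw [Finset.sum_add_distrib, ← Finset.sum_div, Finset.sum_const, nsmul_eq_mul]
    have h3 := mul_le_mul_of_nonneg_right (card_I4 R hm p B F Vs Xs d) ht.le
    have h4 : 10 * ((R.n : ℝ) + p.J + 1) * t ≤ 10 * N * t := mul_le_mul_of_nonneg_right (by linarith) ht.le
    linarith
  have h2 : sqW R p B bS bV F Vs Xs μ K' o o' ≤ ∑ d ∈ range (B + 1),
      ((sOff R p bS μ K' o + sL R μ K' o o' + (sK R p B bV F Vs Xs μ K' o o' d + sP R p B bV F Vs Xs μ K' o o' d)) / t *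
        (1 / ((d : ℝ) + 1) ^ 2) + 10 * N * t * (1 / ((d : ℝ) + 1) ^ 2)) := Finset.sum_le_sum h1
  refine h2.trans ?_
  rw [Finset.sum_add_distrib, ← Finset.mul_sum]
  have hs := sum_sq_le (B + 1)
  have h5 : 10 * N * t * ∑ d ∈ range (B + 1), (1 : ℝ) / ((d : ℝ) + 1) ^ 2 ≤ 10 * N * t * 2 :=
    mul_le_mul_of_nonneg_left hs (by positivity)
  -- the sums of the probabilities
  have hOff : sOff R p bS μ K' o ≤ K' ^ 2 * N * q2 (μ / 4) * cOff R p bS μ K' o := by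
    have e1 : sOff R p bS μ K' o ≤ cOff R p bS μ K' o * tD R p μ K' 0 := le_of_div (tD_pos hK) le_rfl
    have e2 : tD R p μ K' 0 ≤ K' ^ 2 * N * q2 (μ / 4) := by
      unfold tD
      push_cast
      have := mul_le_mul_of_nonneg_left hN (by positivity : 0 ≤ K' ^ 2 * q2 (μ / 4))
      linarith
    have e3 := mul_le_mul_of_nonneg_left e2 (cOff_nonneg (R := R) (p := p) (bS := bS) (μ := μ) (o := o) hK)
    linarith
  have hL : sL R μ K' o o' ≤ K' ^ 2 * N * q2 (μ / 4) * cOffL R p μ K' o o' := by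
    have e1 : sL R μ K' o o' ≤ cOffL R p μ K' o o' * tD R p μ K' 0 := le_of_div (tD_pos hK) le_rfl
    have e2 : tD R p μ K' 0 ≤ K' ^ 2 * N * q2 (μ / 4) := by
      unfold tD
      push_cast
      have := mul_le_mul_of_nonneg_left hN (by positivity : 0 ≤ K' ^ 2 * q2 (μ / 4))
      linarith
    have e3 := mul_le_mul_of_nonneg_left e2 (cOffL_nonneg (R := R) (p := p) (μ := μ) (o := o) (o' := o') hK)
    linarith
  have hKP : ∀ d ∈ range (B + 1),
      (sOff R p bS μ K' o + sL R μ K' o o' + (sK R p B bV F Vs Xs μ K' o o' d + sP R p B bV F Vs Xs μ K' o o' d)) / t *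
        (1 / ((d : ℝ) + 1) ^ 2) ≤
      (K' ^ 2 * N * q2 (μ / 4) / t * (cOff R p bS μ K' o + cOffL R p μ K' o o')) * (1 / ((d : ℝ) + 1) ^ 2) +
        K' ^ 2 * N * q2 (μ / 4) / t * (cOffK R p B bV F Vs Xs μ K' o o' d + cOffP R p B bV F Vs Xs μ K' o o' d) := by
    intro d _
    have hd : (0 : ℝ) < ((d : ℝ) + 1) ^ 2 := by positivity
    have e1 : sK R p B bV F Vs Xs μ K' o o' d + sP R p B bV F Vs Xs μ K' o o' d ≤
        (cOffK R p B bV F Vs Xs μ K' o o' d + cOffP R p B bV F Vs Xs μ K' o o' d) * tD R p μ K' d := by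
      unfold cOffK cOffP
      rw [← add_div, div_mul_cancel₀ _ (tD_pos hK).ne']
    have e2 : tD R p μ K' d ≤ K' ^ 2 * N * q2 (μ / 4) * ((d : ℝ) + 1) ^ 2 := by
      unfold tD
      have := mul_le_mul_of_nonneg_left hN (by positivity : 0 ≤ K' ^ 2 * ((d : ℝ) + 1) ^ 2 * q2 (μ / 4))
      linarith
    have e3 := mul_le_mul_of_nonneg_left e2 (add_nonneg (cOffK_nonneg (R := R) (p := p) (B := B) (bV := bV) (F := F)
      (Vs := Vs) (Xs := Xs) (μ := μ) (o := o) (o' := o') (d := d) hK) (cOffP_nonneg (R := R) (p := p) (B := B) (bV := bV)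
      (F := F) (Vs := Vs) (Xs := Xs) (μ := μ) (o := o) (o' := o') (d := d) hK))
    have e4 : sOff R p bS μ K' o + sL R μ K' o o' + (sK R p B bV F Vs Xs μ K' o o' d + sP R p B bV F Vs Xs μ K' o o' d) ≤
        K' ^ 2 * N * q2 (μ / 4) * (cOff R p bS μ K' o + cOffL R p μ K' o o') +
        K' ^ 2 * N * q2 (μ / 4) * (cOffK R p B bV F Vs Xs μ K' o o' d + cOffP R p B bV F Vs Xs μ K' o o' d) *
          ((d : ℝ) + 1) ^ 2 := by linarith
    have e5 := mul_le_mul_of_nonneg_right (div_le_div_of_nonneg_right e4 ht.le) (by positivity : 0 ≤ 1 / ((d : ℝ) + 1) ^ 2)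
    refine e5.trans (le_of_eq ?_)
    field_simp
  refine (add_le_add ((Finset.sum_le_sum hKP).trans (le_of_eq Finset.sum_add_distrib)) h5).trans ?_
  rw [← Finset.mul_sum, ← Finset.mul_sum]
  have hc : 0 ≤ K' ^ 2 * N * q2 (μ / 4) / t := by positivity
  have c1 := cOff_nonneg (R := R) (p := p) (bS := bS) (μ := μ) (o := o) hK
  have c2 := cOffL_nonneg (R := R) (p := p) (μ := μ) (o := o) (o' := o') hK
  have c3 : 0 ≤ ∑ d ∈ range (B + 1), (cOffK R p B bV F Vs Xs μ K' o o' d + cOffP R p B bV F Vs Xs μ K' o o' d) :=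
    Finset.sum_nonneg fun _ _ => add_nonneg (cOffK_nonneg hK) (cOffP_nonneg hK)
  have h6 : K' ^ 2 * N * q2 (μ / 4) / t * (cOff R p bS μ K' o + cOffL R p μ K' o o') *
      ∑ d ∈ range (B + 1), (1 : ℝ) / ((d : ℝ) + 1) ^ 2 ≤
      K' ^ 2 * N * q2 (μ / 4) / t * (cOff R p bS μ K' o + cOffL R p μ K' o o') * 2 :=
    mul_le_mul_of_nonneg_left hs (mul_nonneg hc (by linarith))
  have h7 := mul_nonneg hc c3
  have e6 : 2 * K' ^ 2 * N * q2 (μ / 4) / t * o4 R p B bS bV F Vs Xs μ K' o o' =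
      K' ^ 2 * N * q2 (μ / 4) / t * (cOff R p bS μ K' o + cOffL R p μ K' o o') * 2 +
      2 * (K' ^ 2 * N * q2 (μ / 4) / t *
        ∑ d ∈ range (B + 1), (cOffK R p B bV F Vs Xs μ K' o o' d + cOffP R p B bV F Vs Xs μ K' o o' d)) := by
    unfold o4
    ring
  rw [e6]
  linarith

end Vale.Agent.P106.U.H565
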