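import Vale.Agent.P106.U.H565.RunF
import Vale.Agent.P106.U.H523.Front

/-!
# P106 / U / H565 : the start data of the run from helper523's `St` (helper565)
-/

set_option autoImplicit false

namespace Vale.Agent.P106.U.H565

open Finset Vale.Agent.P127 Vale.Agent.P127.Stk Vale.Agent.P127.U Vale.Agent.P106.W
open Vale.Agent.P106.K (Ry RyOk bl Bin)
open Vale.Agent.P127.U.CellD (q2 rd)
open Vale.Agent.P106.U Vale.Agent.P106.U.H449 Vale.Agent.P106.U.StripL Vale.Agent.P106.U.StripE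
open Vale.Agent.P106.U.H523 (Nums.Inp)

/-- the start data -/
noncomputable def c0 {Ω : Type} [Fintype Ω] (σ : S5.Cst) (m B J M : ℕ) (P : Law Ω) (l : Ω → Ry) (t : Ω → ℝ)
    (L h q : ℕ) (W : Ω → Cbx) (S : Cbx) (r' : ℕ) (θ sg : ℝ) (Md : ℕ) (thr : ℝ) : C0 Ω where
  P := P
  l := l
  t := t
  W := W
  L := L
  I := ⟨σ.C1, σ.δ1, m, B, J, M, h, q, r'⟩
  θ := θ
  d0 := Start.dS sg S (m * (r' / m))
  Md := Md
  thr := thr

variable {Ω : Type} [Fintype Ω] {σ : S5.Cst} {d1 D : ℝ} {g : S5.Gv} {m B J M N0 Rm X : ℕ} {P : Law Ω} {l : Ω → Ry}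
  {t : Ω → ℝ} {L h q r0 : ℕ} {W : Ω → Cbx} {S : Cbx} {r' : ℕ} {θ sg : ℝ} {Md : ℕ} {thr : ℝ}

/-- **the facts before the words** -/
theorem c0_st (H : H523.Front.St σ d1 g D m B J M N0 Rm X P l t L h q r0 W S r' θ sg) (hm : 6 ≤ m)
    (hR : 2 * (m * B) + 3 ≤ Rm) (hMd : M + 2 ≤ Md) (hX : 12 ≤ X) :
    (c0 σ m B J M P l t L h q W S r' θ sg Md thr).St (Rm - 1) where
  m6 := hm
  sys := fun ω _ => ⟨H.ry ω, H.t0 ω, (H.t1 ω).le⟩
  fw := fun ω _ => H.fw ω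
  μR := by
    show 2 * (m * B) + 2 ≤ Rm - 1
    omega
  s0 := rfl
  a0 := rfl
  k0 := rfl
  al0 := (H.al _).trans (by norm_num)
  in0 := fun ω => H.ins (m * (r' / m)) (Nat.mul_div_le _ _) ω
  NS := H.few (m * (r' / m)) (Nat.mul_div_le _ _) P fun _ h => h
  Md2 := hMd
  r0 := by
    have h1 : X ≤ m * (r' / m - 2) := H.rs
    have h2 : q2 (m * (r' / m - 2)) ≤ q2 12 := Vale.Agent.P127.U.CellD.q2_le (hX.trans h1)
    have h3 : q2 12 = 1 / 4096 := by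
      unfold q2
      norm_num
    show 3888 * q2 (m * (r' / m - 2)) ≤ 1
    rw [h3] at h2
    linarith

end Vale.Agent.P106.U.H565
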