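import Vale.Agent.P106.U.H565.RunE
import Vale.Agent.P106.U.H565.RunS
import Vale.Agent.P106.U.H205.CmpG
import Vale.Agent.P106.U.H523.Cst
import Vale.Agent.P106.U.H652.NumsH
import Vale.Agent.P106.U.H449.CapC
import Vale.Agent.P106.U.H480.AppSel

/-!
# P106 / U / H565 : composition of `PRun` (helper565)

* `AppSel` : the selection, as a statement (helper480's `run_sel` for the concrete words, caps above `8 B`).
* `appSel` : it holds;  `cn_max` : the best constant of domination.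
* `pBig_of` : `AppSel → PF2 → PBig RA RR`.
* **`pRun_of : PF2 → PRun RA RR`**.
-/

set_option autoImplicit false

namespace Vale.Agent.P106.U.H565

open Finset Vale.Agent.P127 Vale.Agent.P127.Stk Vale.Agent.P127.U Vale.Agent.P106.W
open Vale.Agent.P106.K (Ry RyOk bl Bin)
open Vale.Agent.P127.U.CellD (q2 rd q2_pos q2_le)
open Vale.Agent.P106.U Vale.Agent.P106.U.H449 Vale.Agent.P106.U.StripL Vale.Agent.P106.U.StripE
open Vale.Agent.P106.U.LinkR Vale.Agent.P106.U.InsL Vale.Agent.P106.U.InpC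
open Vale.Agent.P106.U.H523.SwRec Vale.Agent.P106.U.H652.RunB
open Vale.Agent.P106.U.H823.NumW (A1 A3)
open Vale.Agent.P127.U.Mic (colp)
open Vale.Agent.P106.U.H205.CmpG (btC r1C)

theorem gok_mono {σ : S5.Cst} {ε ε' : ℝ} {g : S5.Gv} (hg : g.Ok σ ε) (h : ε ≤ ε') : g.Ok σ ε' :=
  ⟨hg.k0, hg.kε.trans h, hg.β0, hg.βb, hg.bε.trans (by linarith), hg.b3, hg.fix⟩

/-- **the selection** -/
def AppSel : Prop :=
  ∀ σ : S5.Cst, σ.Ok → ∀ ε : ℝ, 0 < ε → ∃ CA cS Cψ : ℝ, 0 ≤ CA ∧ 0 < cS ∧ 0 ≤ Cψ ∧ ∀ εL : ℝ, 0 < εL → ∃ d0 : ℝ, 0 < d0 ∧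
    ∀ g : S5.Gv, g.Ok σ d0 → ∃ m0 : ℕ, 3 ≤ m0 ∧ ∀ m : ℕ, m0 ≤ m → ∀ B Tc s : ℕ, 0 < Tc → 1 ≤ s → ∃ h0 : ℕ,
    ∀ (Ω : Type) [Fintype Ω] (c : C0 Ω) (hm : 3 ≤ c.I.m) (Rm : ℕ) (_St : c.St Rm) (_good : c.I.Good (σ.K1 + 1 / 2) 4)
      (cc : ℝ), 0 ≤ cc → cc ≤ cS → c.I.m = m → c.I.δ1 = σ.δ1 → h0 ≤ c.I.h →
      NEx 100 σ.lam σ.N g.k g.β d0 c.P c.l c.t (fun _ => ()) c.L c.I.h c.I.q c.W →
      ∀ (bt : Law Ω → ℕ → ℕ → Ω → Bool) (ψ : Law Ω → ℕ → ℕ → (ℕ → Bool) × (ℕ → ℕ → ℕ) → ℝ),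
      (∀ (Q1 : Law Ω) (E1 : List (Lt 2)) (x1 : ℝ), Cn c.rule c.P Q1 c.I.pm.n E1 x1 →
        NEx 100 σ.lam σ.N g.k g.β εL Q1 c.l c.t (fun _ => ()) c.L c.I.h c.I.q c.W →
        (∀ b0 kk, Dtm Q1 (c.Gb hm cc Q1 (b0 + kk * s)) (bt Q1 b0 kk)) ∧
        (∀ b0 kk, 1 / 2 ≤ prE Q1 (fun ω => ∀ j ≤ kk, bt Q1 b0 j ω = true)) ∧
        (∀ b0 kk, ∀ ω, 0 < Q1.w ω → 0 ≤ ψ Q1 b0 kk (c.zW hm cc s bt Q1 b0 kk ω)) ∧
        ∑ b0 ∈ range (nBl (σ.δ1 / 2) c.I.h m + 1 - Tc * s), ∑ kk ∈ range Tc,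
          Q1.ex (fun ω => ψ Q1 b0 kk (c.zW hm cc s bt Q1 b0 kk ω)) ≤ nBl (σ.δ1 / 2) c.I.h m * Tc) →
      ∃ (b0 kk : ℕ) (Q1 : Law Ω) (E1 : List (Lt 2)) (x1 : ℝ) (_ : Cn c.rule c.P Q1 c.I.pm.n E1 x1)
        (e2 : (ℕ → Bool) × (ℕ → ℕ → ℕ)), 0 < Q1.pr (c.zW hm cc s bt Q1 b0 kk) e2 ∧ kk < Tc ∧
        b0 + Tc * s ≤ nBl (σ.δ1 / 2) c.I.h m ∧ 8 * B < b0 ∧ ψ Q1 b0 kk e2 ≤ Cψ ∧
        NEx 100 σ.lam σ.N g.k g.β εL Q1 c.l c.t (fun _ => ()) c.L c.I.h c.I.q c.W ∧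
        NEx 100 σ.lam σ.N g.k g.β εL (Q1.cond (c.zW hm cc s bt Q1 b0 kk) e2) c.l c.t (fun _ => ()) c.L c.I.h c.I.q c.W ∧
        (∀ j ≤ kk, e2.1 j = true) ∧
        Stk.hc (Q1.cond (c.zW hm cc s bt Q1 b0 kk) e2) (c.Gb hm cc Q1 (b0 + kk * s)) (c.Fy (b0 + kk * s)) ≤ ε * c.I.h ∧
        colp (Q1.cond (c.zW hm cc s bt Q1 b0 kk) e2) (c.Yb (b0 + kk * s)) (c.Gb hm cc Q1 (b0 + kk * s)) ≤ ε ∧
        Real.log (1 / (x1 * Q1.pr (c.zW hm cc s bt Q1 b0 kk) e2)) ≤ CA * c.I.h / c.I.m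

/-- **the selection exists** (helper480) -/
theorem appSel : AppSel := by
  intro σ hσ ε hε
  have hlam := hσ.bs.lam0
  obtain ⟨CA, hCA, c', hc', -, H⟩ := G480.app_sel hσ hε (by positivity : 0 < ε / 20) (by norm_num : (0 : ℝ) < 1 / 2) (by norm_num)
  refine ⟨CA + 2 + 480 * CA / (σ.lam * (1 / 2)), c', 1920 / (σ.lam * (1 / 2)), by positivity, hc', by positivity, ?_⟩
  intro εL hεL
  obtain ⟨d1, hd1, H⟩ := H εL hεL
  refine ⟨d1, hd1, fun g hg => ?_⟩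
  obtain ⟨m0, hm0, H⟩ := H g hg
  refine ⟨m0, hm0, fun m hm B Tc s hTc hs => ?_⟩
  obtain ⟨h0, H⟩ := H m hm B Tc s hTc hs
  refine ⟨h0, ?_⟩
  intro Ω _ c hm3 Rm St good cc hc0 hcc em eδ hh hne bt ψ hall
  subst em
  obtain ⟨ψ', b0, kk, E1, E, e2, Q1, Q2, S, hlow, hcost⟩ := H Ω c hm3 Rm 4 St good rfl eδ hh hne cc hc0 hcc bt ψ (by
    intro Q1 E1 x1 cn hn
    obtain ⟨k1, k2, k3, k4⟩ := hall Q1 E1 x1 cn hn
    exact ⟨fun b0 kk _ _ => k1 b0 kk, fun b0 kk _ _ => k2 b0 kk, k3, k4⟩)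
  obtain ⟨ψ'', x⟩ := S.sel
  have hq2 : Q2 = Q1.cond (c.zW hm3 cc s bt Q1 b0 kk) e2 := x.q2
  refine ⟨b0, kk, Q1, E1, _, S.cn1, e2, x.pos2, S.kT, S.room, hlow, hcost, S.nex1, ?_, S.bit.1, ?_, ?_, S.lp⟩
  · rw [← hq2]
    exact S.nex2
  · rw [← hq2]
    exact S.prW
  · rw [← hq2]
    have h1 := S.colp
    have e1 : 10 * (ε / 20) / (1 / 2) = ε := by ring
    rw [e1] at h1
    exact h1

/-- the best constant of domination -/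
theorem cn_max {Ω : Type} [Fintype Ω] {K : ℕ} {δ γ ζ₁ ζ₂ : Type} {e : Rl Ω K δ γ ζ₁ ζ₂} {P Q : Law Ω} {n : ℕ}
    (h : ∃ (E : List (Lt K)) (x : ℝ), Cn e P Q n E x) :
    ∃ (E : List (Lt K)) (x : ℝ), Cn e P Q n E x ∧ ∀ (E' : List (Lt K)) (x' : ℝ), Cn e P Q n E' x' → x' ≤ x := by
  classical
  obtain ⟨E, x, h⟩ := h
  obtain ⟨ω₀, hω₀⟩ := H465.GcK.ex_supp Q
  have hS : (univ.filter fun ω => 0 < Q.w ω).Nonempty := ⟨ω₀, mem_filter.2 ⟨mem_univ _, hω₀⟩⟩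
  refine ⟨E, (univ.filter fun ω => 0 < Q.w ω).inf' hS (fun ω => P.w ω / Q.w ω), ⟨?_, ?_, h.hE⟩, ?_⟩
  · obtain ⟨ω, h1, h2⟩ := (univ.filter fun ω => 0 < Q.w ω).exists_mem_eq_inf' hS (fun ω => P.w ω / Q.w ω)
    rw [h2]
    have h3 := (mem_filter.1 h1).2
    exact div_pos (h.pos h3) h3
  · intro ω
    by_cases hω : 0 < Q.w ω
    · have h3 := Finset.inf'_le (fun ω => P.w ω / Q.w ω) (mem_filter.2 ⟨mem_univ ω, hω⟩ : ω ∈ univ.filter fun ω => 0 < Q.w ω)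
      rwa [le_div_iff₀ hω] at h3
    · have h3 : Q.w ω = 0 := le_antisymm (not_lt.1 hω) (Q.nn ω)
      rw [h3, mul_zero]
      exact P.nn ω
  · intro E' x' h'
    refine Finset.le_inf' hS _ fun ω hω => ?_
    have h3 := (mem_filter.1 hω).2
    rw [le_div_iff₀ h3]
    exact h'.dom ω

/-- the conclusion of `PF2` at one law -/
def PF2C {Ω : Type} [Fintype Ω] (σ : S5.Cst) (K Cψ cc : ℝ) (m B Tc s : ℕ) (c : C0 Ω) (hm : 3 ≤ c.I.m) {Rm : ℕ} (St : c.St Rm)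
    (good : c.I.Good (σ.K1 + 1 / 2) 4) (hc : 0 ≤ cc) (bt : Law Ω → ℕ → ℕ → Ω → Bool) (Q1 : Law Ω) {E1 : List (Lt 2)} {x1 : ℝ}
    (cn : Cn c.rule c.P Q1 c.I.pm.n E1 x1) (o : Fin 7 → ℝ) (oK oG oN : ℝ) (ψ : ℕ → ℕ → (ℕ → Bool) × (ℕ → ℕ → ℕ) → ℝ) : Prop :=
  (∀ b0 kk, ∀ ω, 0 < Q1.w ω → 0 ≤ ψ b0 kk (c.zW hm cc s bt Q1 b0 kk ω)) ∧
  ∑ b0 ∈ range (nBl (σ.δ1 / 2) c.I.h m + 1 - Tc * s), ∑ kk ∈ range Tc,
    Q1.ex (fun ω => ψ b0 kk (c.zW hm cc s bt Q1 b0 kk ω)) ≤ nBl (σ.δ1 / 2) c.I.h m * Tc ∧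
  ∀ (b0 kk : ℕ) (e2 : (ℕ → Bool) × (ℕ → ℕ → ℕ)) (hz : 0 < Q1.pr (c.zW hm cc s bt Q1 b0 kk) e2), kk < Tc →
    b0 + Tc * s ≤ nBl (σ.δ1 / 2) c.I.h m → 8 * B < b0 → ψ b0 kk e2 ≤ Cψ → (∀ j ≤ kk, e2.1 j = true) →
    ∃ (ξ : Type) (X : ℕ → Ω → ξ) (hX : ∀ i ω ω', X (i + 1) ω = X (i + 1) ω' → X i ω = X i ω'),
      let C := c.c2 hm cc good cn St.in0 hc s bt b0 kk e2 hz o oK oG oN
      (∀ i ≤ C.run.n + C.num.J, Fn C.run.Q (X i) C.run.W') ∧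
      (∀ i ≤ C.run.n + C.num.J, Fn C.run.Q (X i) (C.run.Z i)) ∧
      ∃ (π : Type) (bS bV : ℕ) (F : S3.Pf (C.run.ext X hX) π) (Vs Xs : Finset ℕ),
        S3.F2 (C.run.ext X hX) C.num K B bS bV F Vs Xs

/-- **composition** -/
theorem pBig_of (hA : AppSel) (hF2 : PF2) : H523.Front.PBig S5.RA S5.RR := by
  intro σ hσ ε hε
  have hlam := hσ.bs.lam0
  have hK10 := hσ.bs.K10
  have hδ := hσ.δ0
  have hδθ := hσ.δθ
  have hθ4 := hσ.θ4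
  obtain ⟨CA, cS, Cψ, hCA, hcS, hCψ, hA⟩ := hA σ hσ ε hε
  obtain ⟨ηC, dC, hηC, hdC, hC⟩ := H205.CmpG.cmp_run hσ
  obtain ⟨C, hCc⟩ := H523.Cs.exists_cc hσ hε hcS hηC
  obtain ⟨εL, hεL⟩ : ∃ x : ℝ, x = min (min C.dT ε) dC := ⟨_, rfl⟩
  have hdT := hCc.dT0
  have hεL0 : 0 < εL := by rw [hεL]; exact lt_min (lt_min hdT hε) hdC
  have hεL1 : εL ≤ C.dT := by rw [hεL]; exact (min_le_left _ _).trans (min_le_left _ _)
  have hεL2 : εL ≤ ε := by rw [hεL]; exact (min_le_left _ _).trans (min_le_right _ _)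
  have hεL3 : εL ≤ dC := by rw [hεL]; exact min_le_right _ _
  obtain ⟨d0, hd0, hA⟩ := hA εL hεL0
  obtain ⟨d1, hd1⟩ : ∃ x : ℝ, x = min d0 εL := ⟨_, rfl⟩
  have hd10 : 0 < d1 := by rw [hd1]; exact lt_min hd0 hεL0
  have hd1a : d1 ≤ d0 := by rw [hd1]; exact min_le_left _ _
  have hd1b : d1 ≤ εL := by rw [hd1]; exact min_le_right _ _
  refine ⟨C.ρ, hCc.ρ, d1, hd10, ?_⟩
  intro g hg D hD
  obtain ⟨mA, hmA3, hA⟩ := hA g (gok_mono hg hd1a)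
  obtain ⟨mC, hmC, hC⟩ := hC g (gok_mono hg (hd1b.trans hεL3))
  obtain ⟨mL, hL⟩ := hCc.light g.k g.β g.b' hg.k0 (hg.kε.trans (hd1b.trans hεL1)) hg.β0 hg.βb
    (hg.bε.trans (by linarith)) hg.fix CA hCA
  obtain ⟨mF, hF⟩ := hF2 σ hσ C.K Cψ C.c' C.J C.M C.Md hCc.K648 hCψ hCc.c'0 hCc.c'1 hCc.M1 hCc.Md2 hCc.J1 hCc.J3
    (by have := hCc.JM; omega)
  have hkL := H425.kL_pos hCc.ct0 hCc.cr0 hCc.T0
  obtain ⟨mG, hG⟩ := H652.RunB.lg_num (σ.K1 + 1 / 2) (ε := min ε σ.δ1) (T := C.T) (kL := H425.kL C.ct C.cr C.T) (lt_min hε hδ)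
    hCc.T0 hkL.le C.J
  obtain ⟨mP, hmP, hP⟩ := H652.RunB.lp_num (CA := CA) hε
  refine ⟨max (max (max mA mC) (max mL mF)) (max (max mG mP) (max C.mA 6)), ?_⟩
  intro m hm
  have hm1 : mA ≤ m := (((le_max_left _ _).trans (le_max_left _ _)).trans (le_max_left _ _)).trans hm
  have hm2 : mC ≤ m := (((le_max_right _ _).trans (le_max_left _ _)).trans (le_max_left _ _)).trans hm
  have hm3' : mL ≤ m := (((le_max_left _ _).trans (le_max_right _ _)).trans (le_max_left _ _)).trans hm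
  have hm4 : mF ≤ m := (((le_max_right _ _).trans (le_max_right _ _)).trans (le_max_left _ _)).trans hm
  have hm5 : mG ≤ m := (((le_max_left _ _).trans (le_max_left _ _)).trans (le_max_right _ _)).trans hm
  have hm6 : mP ≤ m := (((le_max_right _ _).trans (le_max_left _ _)).trans (le_max_right _ _)).trans hm
  have hm7 : C.mA ≤ m := (((le_max_left _ _).trans (le_max_right _ _)).trans (le_max_right _ _)).trans hm
  have hm8 : 6 ≤ m := (((le_max_right _ _).trans (le_max_right _ _)).trans (le_max_right _ _)).trans hm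
  have hmpos : 0 < m := by omega
  obtain ⟨B0, hF⟩ := hF m hm4
  refine ⟨B0, ?_⟩
  intro B hB
  obtain ⟨Tc, s, X0, R0, hTc, hs, nF, hF⟩ := hF B hB
  obtain ⟨nA, hA⟩ := hA m hm1 B Tc s hTc hs
  obtain ⟨jC, nC, hC⟩ := hC m hm2 C.J D hD
  obtain ⟨nU, hU⟩ := hCc.prU m hm7
  obtain ⟨nG, hgU⟩ := hCc.gU m hm7
  obtain ⟨nE, hE⟩ := end_c hσ (K := C.K) (D := D) (T := C.T) hD hCc.K648 hCc.KM hCc.K15 hCc.T0 (kL := H425.kL C.ct C.cr C.T) hkL.le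
  obtain ⟨nN, hN⟩ := H652.nums_h hσ hmpos B B 0 0 D
  refine ⟨C.J, C.M, 4, max (H652.RmN m B) (R0 + 1), max (H652.XN m B) (max X0 110), hCc.M1, ?_⟩
  intro h1
  refine ⟨max h1 (max (max (max nF nA) (max nC nU)) (max nG (max nE nN))), ?_⟩
  intro Ω _ P l t L h q r0 W S r' θ sg hh H
  have hh1 : h1 ≤ h := (le_max_left _ _).trans hh
  have hh' := (le_max_right _ _).trans hh
  have hhF : nF ≤ h := (((le_max_left _ _).trans (le_max_left _ _)).trans (le_max_left _ _)).trans hh'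
  have hhA : nA ≤ h := (((le_max_right _ _).trans (le_max_left _ _)).trans (le_max_left _ _)).trans hh'
  have hhC : nC ≤ h := (((le_max_left _ _).trans (le_max_right _ _)).trans (le_max_left _ _)).trans hh'
  have hhU : nU ≤ h := (((le_max_right _ _).trans (le_max_right _ _)).trans (le_max_left _ _)).trans hh'
  have hhG : nG ≤ h := ((le_max_left _ _).trans (le_max_right _ _)).trans hh'
  have hhE : nE ≤ h := (((le_max_left _ _).trans (le_max_right _ _)).trans (le_max_right _ _)).trans hh'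
  have hhN : nN ≤ h := (((le_max_right _ _).trans (le_max_right _ _)).trans (le_max_right _ _)).trans hh'
  have N := hN h hhN
  obtain ⟨Rm, hRm⟩ : ∃ x : ℕ, x = max (H652.RmN m B) (R0 + 1) := ⟨_, rfl⟩
  rw [← hRm] at H
  have hRm1 : H652.RmN m B ≤ Rm := by rw [hRm]; exact le_max_left _ _
  have hRm2 : R0 + 1 ≤ Rm := by rw [hRm]; exact le_max_right _ _
  have hX := H.rs
  obtain ⟨c, hc⟩ : ∃ c : C0 Ω, c = c0 σ m B C.J C.M P l t L h q W S r' θ sg C.Md (Ray.thrc C.cr m) := ⟨_, rfl⟩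
  have St : c.St (Rm - 1) := by
    rw [hc]
    refine c0_st H hm8 ?_ hCc.Md2 ?_
    · have := H652.RmN_le m B
      unfold H652.RmN at hRm1
      omega
    · exact (le_max_left _ _).trans (le_max_left _ _)
  have good : c.I.Good (σ.K1 + 1 / 2) 4 := by rw [hc]; exact H.good
  have eC : c.I.C1 = σ.C1 := by rw [hc]; rfl
  have eδ : c.I.δ1 = σ.δ1 := by rw [hc]; rfl
  have em : c.I.m = m := by rw [hc]; rfl
  have eB : c.I.B = B := by rw [hc]; rfl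
  have eJ : c.I.J = C.J := by rw [hc]; rfl
  have eM : c.I.M = C.M := by rw [hc]; rfl
  have eh : c.I.h = h := by rw [hc]; rfl
  have eMd : c.Md = C.Md := by rw [hc]; rfl
  have et : c.thr = Ray.thrc C.cr m := by rw [hc]; rfl
  have hq : 10 * σ.C1 * σ.δ1 * c.I.h ≤ c.I.q := by
    have h2 := H.q11
    have h3 : 0 ≤ σ.C1 := by
      show 0 ≤ 1000 / σ.lam + 1
      positivity
    have h4 : 0 ≤ σ.C1 * σ.δ1 * h := by positivity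
    rw [hc]
    show 10 * σ.C1 * σ.δ1 * h ≤ q
    linarith
  have hrs : max (H652.XN m B) (max X0 110) ≤ c.I.rs := by rw [hc]; exact H.rs
  have ht : ∀ ω, 0 ≤ c.t ω ∧ c.t ω < 1 := by rw [hc]; exact fun ω => ⟨H.t0 ω, H.t1 ω⟩
  have hnex : NEx 100 σ.lam σ.N g.k g.β d0 c.P c.l c.t (fun _ => ()) c.L c.I.h c.I.q c.W := by
    rw [hc]
    exact nex_mono hd1a H.nf.nex
  have hsw1 : H425.SwA D (H425.C1 σ.lam) (la (8 * σ.δ1) c.I.h) c.I.h c.I.q c.P c.l c.t c.W := by rw [hc]; exact H.sw1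
  have hsw2 : H425.SwA D (H425.C1 σ.lam) (la (Real.sqrt σ.θ) c.I.h) c.I.h c.I.q c.P c.l c.t c.W := by rw [hc]; exact H.sw2
  have hκ : ∀ ω, |(c.W ω).κ| ≤ 1 := by
    rw [hc]
    intro ω
    exact (H.w0 ω).κ.trans (by norm_num)
  clear hc
  have hm3 : 3 ≤ c.I.m := by rw [em]; omega
  have hcc : (0 : ℝ) ≤ C.c' := hCc.c'0.le
  have hth0 : 0 < c.thr := by rw [et]; exact Ray.thrc_pos _ _
  have hth1 : c.thr ≤ 1 := by rw [et]; exact (Ray.thrc_lt hCc.cr0 (by omega)).le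
  have hgU' : ∀ (E : List (Lt 2)) (A' : ℕ), Rw c.I.pm.n E 0 A' + Rw c.I.pm.n E 1 A' ≤ c.I.pm.n →
      Ray.HasU.gU c.I.m c.I.pm E c.Md c.thr 3 A' ≤ ηC * c.I.h := by
    intro E A' hw
    have h1 := hgU c.I.h (by rw [eh]; exact hhG) c.I.pm E A' eM
      (by have h2 := good.n1; rw [em] at h2; exact h2) hw
    rw [em, eMd, et]
    exact h1.trans (mul_le_mul_of_nonneg_right (min_le_left _ _) (Nat.cast_nonneg _))
  have hC' := hC Ω c hm3 C.c' hcc (Rm - 1) (σ.K1 + 1 / 2) St good em eJ eδ eC (by rw [eh]; exact hhC) hq hth0 hth1 hgU' hsw1 s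
  obtain ⟨bt, hbt⟩ : ∃ bt : Law Ω → ℕ → ℕ → Ω → Bool, bt = btC c hm3 C.c' (r1C σ jC c.I.h c.I.q) s := ⟨_, rfl⟩
  rw [← hbt] at hC'
  clear hC
  have dtm : ∀ (Q1 : Law Ω) (E1 : List (Lt 2)) (x1 : ℝ), Cn c.rule c.P Q1 c.I.pm.n E1 x1 → ∀ b0 kk,
      Dtm Q1 (c.Gb hm3 C.c' Q1 (b0 + kk * s)) (bt Q1 b0 kk) := fun Q1 E1 x1 cn => (hC' Q1 E1 x1 cn).1
  have HB : ∀ (Q1 : Law Ω) (E1 : List (Lt 2)) (x1 : ℝ) (cn : Cn c.rule c.P Q1 c.I.pm.n E1 x1),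
      NEx 100 σ.lam σ.N g.k g.β dC Q1 c.l c.t (fun _ => ()) c.L c.I.h c.I.q c.W →
      ∀ (b0 k : ℕ) (z : (ℕ → Bool) × (ℕ → ℕ → ℕ)) (hz : 0 < Q1.pr (c.zW hm3 C.c' s bt Q1 b0 k) z), (∀ j ≤ k, z.1 j = true) →
        ∀ (o : Fin 7 → ℝ) (oK oG oN : ℝ), ∃ Ac rc : ℕ,
          (c.c2 hm3 C.c' good cn St.in0 hcc s bt b0 k z hz o oK oG oN).Hyp (Rm - 1) C.c' Ac rc := by
    intro Q1 E1 x1 cn hn b0 k z hz hb o oK oG oN
    obtain ⟨_, _, Ac, _, _, HH⟩ := (hC' Q1 E1 x1 cn).2 hn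
    refine ⟨Ac, _, HH b0 k _ (c.zW hm3 C.c' s bt Q1 b0 k) z hz 4 o oK oG oN ?_ ?_ ?_ ?_ ?_ ?_ (by norm_num)⟩
    · intro ω hω hwz
      have h1 := G480.ZwC_bit hwz (le_refl k)
      rw [hb k le_rfl] at h1
      exact h1
    · exact fun ω ω' h h' e => G480.ZwC_dtm cn (fun j _ => dtm Q1 E1 x1 cn b0 j) ω ω' h h' e
    · intro ω ω' _ _ e a ha
      have h1 := G480.ZwC_rt (z := c.zW hm3 C.c' s bt Q1 b0 k ω') e (le_refl k) ha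
      have h2 := G480.ZwC_rt (z := c.zW hm3 C.c' s bt Q1 b0 k ω') rfl (le_refl k) ha
      exact h1.trans h2.symm
    · rw [eM, eJ]; exact hCc.J1
    · rw [eM, eJ]; exact hCc.J3
    · rw [eMd, eJ]; have := hCc.JM; omega
  have key : ∀ Q1 : Law Ω, ∃ ψ : ℕ → ℕ → (ℕ → Bool) × (ℕ → ℕ → ℕ) → ℝ,
      (∃ (E : List (Lt 2)) (x : ℝ), Cn c.rule c.P Q1 c.I.pm.n E x) →
      NEx 100 σ.lam σ.N g.k g.β dC Q1 c.l c.t (fun _ => ()) c.L c.I.h c.I.q c.W →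
      ∃ (E1 : List (Lt 2)) (x1 : ℝ) (cn : Cn c.rule c.P Q1 c.I.pm.n E1 x1),
        (∀ (E' : List (Lt 2)) (x' : ℝ), Cn c.rule c.P Q1 c.I.pm.n E' x' → x' ≤ x1) ∧
        ∃ (o : Fin 7 → ℝ) (oK oG oN : ℝ), PF2C σ C.K Cψ C.c' m B Tc s c hm3 St good hcc bt Q1 cn o oK oG oN ψ := by
    intro Q1
    by_cases h1 : (∃ (E : List (Lt 2)) (x : ℝ), Cn c.rule c.P Q1 c.I.pm.n E x) ∧
        NEx 100 σ.lam σ.N g.k g.β dC Q1 c.l c.t (fun _ => ()) c.L c.I.h c.I.q c.W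
    · obtain ⟨E1, x1, cn, hmax⟩ := cn_max h1.1
      obtain ⟨o, oK, oG, oN, ψ, hψ⟩ := hF Ω c hm3 (Rm - 1) St good c.thr rfl eC eδ em eB eJ eM eMd (by rw [eh]; exact hhF)
        ((le_max_left _ _).trans ((le_max_right _ _).trans hrs)) (by omega) ht hcc bt Q1 E1 x1 cn (dtm Q1 E1 x1 cn)
        (HB Q1 E1 x1 cn h1.2)
      exact ⟨ψ, fun _ _ => ⟨E1, x1, cn, hmax, o, oK, oG, oN, hψ⟩⟩
    · exact ⟨fun _ _ _ => 0, fun a b => absurd ⟨a, b⟩ h1⟩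
  choose ψ hψ using key
  obtain ⟨b0, kk, Q1, E1', x1', cn', e2, hz, hkk, hroom, hlow, hcost, nx1, nx2, hbit, hprW, hcol, hlp⟩ :=
    hA Ω c hm3 (Rm - 1) St good C.c' hcc hCc.c'S em eδ (by rw [eh]; exact hhA) hnex bt ψ (by
      intro Q1 E1 x1 cn hn
      have hn' := nex_mono hεL3 hn
      obtain ⟨E2, x2, cn2, hmax, o, oK, oG, oN, r1, r2, r3⟩ := hψ Q1 ⟨E1, x1, cn⟩ hn'
      exact ⟨dtm Q1 E1 x1 cn, ((hC' Q1 E1 x1 cn).2 hn').1, r1, r2⟩)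
  obtain ⟨E1, x1, cn, hmax, o, oK, oG, oN, -, -, r3⟩ := hψ Q1 ⟨E1', x1', cn'⟩ (nex_mono hεL3 nx1)
  obtain ⟨Ac, rc, hyp⟩ := HB Q1 E1 x1 cn (nex_mono hεL3 nx1) b0 kk e2 hz hbit o oK oG oN
  have f2 := r3 b0 kk e2 hz hkk hroom hlow hcost hbit
  have hpos : ∀ ω, 0 < (Q1.cond (c.zW hm3 C.c' s bt Q1 b0 kk) e2).w ω → 0 < c.P.w ω :=
    fun ω hω => cn.pos (supp_cond hz hω).1
  have hlp' : Real.log (1 / (x1 * Q1.pr (c.zW hm3 C.c' s bt Q1 b0 kk) e2)) ≤ CA * c.I.h / c.I.m := by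
    refine le_trans (Real.log_le_log (by have := cn.hq; positivity) ?_) hlp
    exact one_div_le_one_div_of_le (mul_pos cn'.hq hz) (mul_le_mul_of_nonneg_right (hmax E1' x1' cn') hz.le)
  have hprU := hU Ω (c.c2 hm3 C.c' good cn St.in0 hcc s bt b0 kk e2 hz o oK oG oN) (Rm - 1) C.c' Ac rc hyp rfl eM eMd em et
    (by show nU ≤ c.I.h; rw [eh]; exact hhU)
  have hh0 : (0 : ℝ) ≤ c.I.h := Nat.cast_nonneg _
  have hg := hG Ω (c.c2 hm3 C.c' good cn St.in0 hcc s bt b0 kk e2 hz o oK oG oN) (Rm - 1) C.c' Ac rc hyp rfl eJ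
    (by show mG ≤ c.I.m; rw [em]; exact hm5)
  have hδ3 : 3 * c.I.δ1 ≤ 1 := by rw [eδ]; linarith
  have hbnd : b0 + kk * s < nBl (c.I.δ1 / 2) c.I.h c.I.m := by
    rw [eδ, em]
    have h1 : kk * s < Tc * s := Nat.mul_lt_mul_of_pos_right hkk hs
    omega
  have hcap : (c.c2 hm3 C.c' good cn St.in0 hcc s bt b0 kk e2 hz o oK oG oN).run.Cap
      (c.c2 hm3 C.c' good cn St.in0 hcc s bt b0 kk e2 hz o oK oG oN).num B ε :=
    CapC.cap_c (c.c2 hm3 C.c' good cn St.in0 hcc s bt b0 kk e2 hz o oK oG oN) (by show 0 < c.I.δ1; rw [eδ]; exact hδ) hδ3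
      (by
        show ((c.I.m * (2 * B + 8 * c.I.B + 2) : ℕ) : ℝ) ≤ c.I.δ1 / 2 * c.I.h
        rw [em, eB, eδ, eh]
        exact N.cap)
      (by show 8 * B < b0 + kk * s; omega) hbnd hcol
  have hmpos' : 0 < c.I.m := by rw [em]; exact hmpos
  have hb1 : b0 + kk * s ≤ c.I.B1b := by
    have h1 : c.I.m * (b0 + kk * s + B) ≤ c.I.m * c.I.B1b := hcap.top
    have h2 := Nat.le_of_mul_le_mul_left h1 hmpos'
    omega
  have hmh : c.I.m ≤ c.I.h := by rw [em, eh]; exact N.mh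
  have hlight := hL Ω (c.c2 hm3 C.c' good cn St.in0 hcc s bt b0 kk e2 hz o oK oG oN) (Rm - 1) C.c' Ac rc hyp
    (by show mL ≤ c.I.m; rw [em]; exact hm3') eMd (by show c.thr = Ray.thrc C.cr c.I.m; rw [em]; exact et) hmh εL hεL1 nx2
    (hprU.trans (mul_le_mul_of_nonneg_right ((min_le_right _ _).trans (min_le_left _ _)) hh0))
    (hlp'.trans (mul_div_assoc CA (c.I.h : ℝ) (c.I.m : ℝ)).le)
  have Mid : (c.c2 hm3 C.c' good cn St.in0 hcc s bt b0 kk e2 hz o oK oG oN).Mid σ g C.ρ ε C.T (H425.kL C.ct C.cr C.T) D m B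
      (Rm - 1) Ac rc :=
    { hyp := hyp
      eC1 := eC
      eδ1 := eδ
      em := em
      eB := eB
      eJ := eJ
      eK1 := rfl
      eps := rfl
      nex := nex_mono hεL2 nx2
      W0 := C1.mk2_W0
      prW := hprW
      prU := hprU.trans (mul_le_mul_of_nonneg_right
        (((min_le_right _ _).trans (min_le_right _ _)).trans (half_le_self hε.le)) hh0)
      gN1 := hg.1.trans (mul_le_mul_of_nonneg_right (min_le_left _ _) hh0)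
      gN2 := hg.1.trans (mul_le_mul_of_nonneg_right (min_le_right _ _) hh0)
      lp := hP c.I.m c.I.h (by rw [em]; exact hm6) _ hlp'
      cap := hcap
      b1 := hb1
      light := hlight
      lg := hg.2
      sw1 := hsw1.mono hpos
      sw2 := hsw2.mono hpos
      κ1 := fun ω _ => hκ ω
      q10 := hq
      rs := (le_max_right _ _).trans ((le_max_right _ _).trans hrs)
      rm := H652.XN_rm ((le_max_left _ _).trans hrs)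
      f2 := f2 }
  obtain ⟨Rn, hR⟩ := hE (c.c2 hm3 C.c' good cn St.in0 hcc s bt b0 kk e2 hz o oK oG oN) S (ρ := C.ρ) rfl hcc hCc.c'e hCc.Te Mid
    (by show nE ≤ c.I.h; rw [eh]; exact hhE)
  exact ⟨Ω, inferInstance, _, _, _, _, _, _, _, Rn, _, S, by show h1 ≤ c.I.h; rw [eh]; exact hh1, Mid.nex, hR⟩

/-- **`PRun` from the producer of the field `f2`** -/
theorem pRun_of (hF2 : PF2) : S5.PRun S5.RA S5.RR := H523.Front.pRun_front (pBig_of appSel hF2)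

end Vale.Agent.P106.U.H565
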