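import Vale.Agent.P106.U.H465.GcR
import Vale.Agent.P106.U.H480.RunSel
import Vale.Agent.P106.U.S3.ExtR
import Vale.Agent.P106.U.S3.F2

/-!
# P106 / U / H565 : the producer of the field `f2`, as a statement (helper565)

* `zW` : the word of the selection (bits, second paths at the caps `b0, .., b0 + kk s`), = helper480's `ZwC`.
* `C0.c1` : the data after word 1;  `C0.c2` : the data at the cap (`C1.mk2`).
* **`PF2`** : for every cost constant `Cψ` and every law `Q1` : offsets of the letter, a cost `ψ` (average `≤ 1`), such that the record of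
  every place with `ψ ≤ Cψ` and all bits true, extended by a history letter `X`, has the field `f2`.
-/

set_option autoImplicit false

namespace Vale.Agent.P106.U.H565

open Finset Vale.Agent.P127 Vale.Agent.P127.Stk Vale.Agent.P127.U Vale.Agent.P106.W
open Vale.Agent.P106.K (Ry RyOk bl Bin)
open Vale.Agent.P127.U.CellD (q2 rd)
open Vale.Agent.P106.U Vale.Agent.P106.U.H449 Vale.Agent.P106.U.StripL Vale.Agent.P106.U.StripE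
open Vale.Agent.P106.U.LinkR Vale.Agent.P106.U.InsL Vale.Agent.P106.U.InpC
open Vale.Agent.P106.U.H823.NumW Vale.Agent.P106.U.H823.PathNum
open Vale.Agent.P127.U.Nonat Vale.Agent.P127.U.YPat Vale.Agent.P127.U.JSB

namespace C0

variable {Ω : Type} [Fintype Ω] (c : C0 Ω) (hm : 3 ≤ c.I.m) (cc : ℝ)

/-- the word of the selection -/
noncomputable def zW (s : ℕ) (bt : Law Ω → ℕ → ℕ → Ω → Bool) (Q : Law Ω) (b0 kk : ℕ) : Ω → (ℕ → Bool) × (ℕ → ℕ → ℕ) :=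
  G480.ZwC c.I.m c.d0 c.rule c.P c.I.pm.n c.I.ha hm cc c.Fy s bt Q b0 kk

/-- the data after word 1 -/
noncomputable def c1 {K1 : ℝ} {N0 : ℕ} (good : c.I.Good K1 N0) {Q1 : Law Ω} {E1 : List (Lt 2)} {x1 : ℝ}
    (cn : Cn c.rule c.P Q1 c.I.pm.n E1 x1) : C1 Ω := ⟨c, K1, N0, good, Q1, E1, x1, cn⟩

/-- the data at the cap `b0 + kk s` -/
noncomputable def c2 {K1 : ℝ} {N0 : ℕ} (good : c.I.Good K1 N0) {Q1 : Law Ω} {E1 : List (Lt 2)} {x1 : ℝ}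
    (cn : Cn c.rule c.P Q1 c.I.pm.n E1 x1) (in0 : ∀ ω, c.d0.In (c.tW ω) (c.κ ω)) (hc : 0 ≤ cc) (s : ℕ)
    (bt : Law Ω → ℕ → ℕ → Ω → Bool) (b0 kk : ℕ) (e2 : (ℕ → Bool) × (ℕ → ℕ → ℕ)) (hz : 0 < Q1.pr (c.zW hm cc s bt Q1 b0 kk) e2)
    (o : Fin 7 → ℝ) (oK oG oN : ℝ) : C2 Ω :=
  (c.c1 good cn).mk2 hm cc in0 hc (b0 + kk * s) (c.zW hm cc s bt Q1 b0 kk) e2 hz 4 o oK oG oN

end C0

/-- **[F2] (producer)** -/
def PF2 : Prop :=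
  ∀ σ : S5.Cst, σ.Ok → ∀ (K Cψ cc : ℝ) (J M Md : ℕ), 648 ≤ K → 0 ≤ Cψ → 0 < cc → cc ≤ 1 / 4 →
    1 ≤ M → M + 2 ≤ Md → A1 M + 1 ≤ J → A3 0 M 0 + 1 ≤ J → 3 * (Md + 1) ≤ J →
    ∃ m0 : ℕ, ∀ m : ℕ, m0 ≤ m → ∃ B0 : ℕ, ∀ B : ℕ, B0 ≤ B → ∃ Tc s X0 R0 : ℕ, 0 < Tc ∧ 1 ≤ s ∧ ∃ h0 : ℕ,
    ∀ (Ω : Type) [Fintype Ω] (c : C0 Ω) (hm : 3 ≤ c.I.m) (Rm : ℕ) (St : c.St Rm) (good : c.I.Good (σ.K1 + 1 / 2) 4)
      (thr : ℝ), c.thr = thr → c.I.C1 = σ.C1 → c.I.δ1 = σ.δ1 → c.I.m = m → c.I.B = B → c.I.J = J → c.I.M = M → c.Md = Md →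
      h0 ≤ c.I.h → X0 ≤ c.I.rs → R0 ≤ Rm → (∀ ω, 0 ≤ c.t ω ∧ c.t ω < 1) → ∀ (hc : 0 ≤ cc) (bt : Law Ω → ℕ → ℕ → Ω → Bool)
      (Q1 : Law Ω) (E1 : List (Lt 2)) (x1 : ℝ) (cn : Cn c.rule c.P Q1 c.I.pm.n E1 x1),
      -- the bits are functions of the closures
      (∀ b0 kk, Dtm Q1 (c.Gb hm cc Q1 (b0 + kk * s)) (bt Q1 b0 kk)) →
      -- at every value of the word whose bits are true the data are good
      (∀ (b0 k : ℕ) (z : (ℕ → Bool) × (ℕ → ℕ → ℕ)) (hz : 0 < Q1.pr (c.zW hm cc s bt Q1 b0 k) z), (∀ j ≤ k, z.1 j = true) →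
        ∀ (o : Fin 7 → ℝ) (oK oG oN : ℝ), ∃ Ac rc : ℕ,
          (c.c2 hm cc good cn St.in0 hc s bt b0 k z hz o oK oG oN).Hyp Rm cc Ac rc) →
      ∃ (o : Fin 7 → ℝ) (oK oG oN : ℝ) (ψ : ℕ → ℕ → (ℕ → Bool) × (ℕ → ℕ → ℕ) → ℝ),
        (∀ b0 kk, ∀ ω, 0 < Q1.w ω → 0 ≤ ψ b0 kk (c.zW hm cc s bt Q1 b0 kk ω)) ∧
        ∑ b0 ∈ range (nBl (σ.δ1 / 2) c.I.h m + 1 - Tc * s), ∑ kk ∈ range Tc,
          Q1.ex (fun ω => ψ b0 kk (c.zW hm cc s bt Q1 b0 kk ω)) ≤ nBl (σ.δ1 / 2) c.I.h m * Tc ∧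
        ∀ (b0 kk : ℕ) (e2 : (ℕ → Bool) × (ℕ → ℕ → ℕ)) (hz : 0 < Q1.pr (c.zW hm cc s bt Q1 b0 kk) e2), kk < Tc →
          b0 + Tc * s ≤ nBl (σ.δ1 / 2) c.I.h m → 8 * B < b0 → ψ b0 kk e2 ≤ Cψ → (∀ j ≤ kk, e2.1 j = true) →
          ∃ (ξ : Type) (X : ℕ → Ω → ξ) (hX : ∀ i ω ω', X (i + 1) ω = X (i + 1) ω' → X i ω = X i ω'),
            let C := c.c2 hm cc good cn St.in0 hc s bt b0 kk e2 hz o oK oG oN
            (∀ i ≤ C.run.n + C.num.J, Fn C.run.Q (X i) C.run.W') ∧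
            (∀ i ≤ C.run.n + C.num.J, Fn C.run.Q (X i) (C.run.Z i)) ∧
            ∃ (π : Type) (bS bV : ℕ) (F : S3.Pf (C.run.ext X hX) π) (Vs Xs : Finset ℕ),
              S3.F2 (C.run.ext X hX) C.num K B bS bV F Vs Xs

end Vale.Agent.P106.U.H565
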