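import Vale.Agent.P106.U.H565.PBigW
import Vale.Agent.P106.U.H428.PF2S
import Vale.Agent.P106.U.H61.PSum

/-!
# P106 / U / H565 : `PRun` from the rows of the frame (helper565)
-/

set_option autoImplicit false

namespace Vale.Agent.P106.U.H565

open Vale.Agent.P106.U.H61.PS

/-- the producer of the field `f2` from the rows -/
theorem pF2_of_rows {FS FJ : FO} (h1 : RowOff) (h2 : RowOT FS FJ) (h3 : RowS FS) (h4 : RowV2) (h5 : RowP1) (h6 : RowJun FJ) :
    PF2 := pF2_of_sum (pSum_of h1 h2 h3 h4 h5 h6)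

/-- **`PRun` from the rows** -/
theorem pRun_of_rows {FS FJ : FO} (h1 : RowOff) (h2 : RowOT FS FJ) (h3 : RowS FS) (h4 : RowV2) (h5 : RowP1) (h6 : RowJun FJ) :
    S5.PRun S5.RA S5.RR := pRun_of (pF2_of_rows h1 h2 h3 h4 h5 h6)

end Vale.Agent.P106.U.H565
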