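import Vale.Agent.P106.U.H565.RunE

/-!
# P106 / U / H565 : (replaced by `RunE.lean`)
-/
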