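import Vale.Agent.P106.U.H565.SelJ2
import Vale.Agent.P127.U.Mic.Colp

/-!
# P106 / U / H565 : the `y`-blocks (YG (ii), helper565)

* `yb m v b` : block of `m` binary digits of the real variable `v` after the first `m * b` digits; `pst m v Wd b` : its past
  (letter `Wd`, first `m * b` digits of `v`).
* `sum_yb` : the entropies of the blocks telescope.
* `ybl_of` : the structure `YBl` (input of `PSelJ`, `PSelJ2`) from one lower bound of `H(v to m B digits | Wd)`.
* `colp_mic`, `colp_fl1_le` : translation of the collision probabilities of the blocks into those of the digits of `v`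
  (`P127/U/Mic/Colp`).
-/

set_option autoImplicit false

namespace Vale.Agent.P106.U

open Finset Vale.Agent.P127 Vale.Agent.P127.Stk Vale.Agent.P127.U Vale.Agent.P106.W Vale.Agent.P106.K
open Vale.Agent.P127.U.Nonat Vale.Agent.P127.U.YPat Vale.Agent.P127.U.JSB

namespace H565

section blocks

variable {Ω : Type} {δ : Type}

/-- block of `m` digits of `v` after the first `m * b` digits -/
noncomputable def yb (m : ℕ) (v : Ω → ℝ) (b : ℕ) (ω : Ω) : ℤ := fl1 (m * (b + 1)) (v ω) - 2 ^ m * fl1 (m * b) (v ω)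

/-- the past of the block: letter and first `m * b` digits -/
noncomputable def pst (m : ℕ) (v : Ω → ℝ) (Wd : Ω → δ) (b : ℕ) (ω : Ω) : δ × ℤ := (Wd ω, fl1 (m * b) (v ω))

theorem yb_mem (m : ℕ) (v : Ω → ℝ) (b : ℕ) (ω : Ω) : 0 ≤ yb m v b ω ∧ yb m v b ω < 2 ^ m := by
  unfold yb fl1
  have e : (2 : ℝ) ^ (m * (b + 1)) * v ω = 2 ^ m * (2 ^ (m * b) * v ω) := by
    rw [mul_add, pow_add, mul_one]
    ring
  rw [e]
  set x : ℝ := 2 ^ (m * b) * v ω with hx
  have hp : (0 : ℝ) < 2 ^ m := by positivity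
  constructor
  · have h1 : (2 : ℤ) ^ m * ⌊x⌋ ≤ ⌊(2 : ℝ) ^ m * x⌋ := by
      refine Int.le_floor.2 ?_
      push_cast
      exact mul_le_mul_of_nonneg_left (Int.floor_le x) hp.le
    linarith
  · have h1 : ⌊(2 : ℝ) ^ m * x⌋ < (2 : ℤ) ^ m * (⌊x⌋ + 1) := by
      refine Int.floor_lt.2 ?_
      push_cast
      exact mul_lt_mul_of_pos_left (Int.lt_floor_add_one x) hp
    linarith

theorem fl1_mono {s s' : ℕ} (h : s ≤ s') {x y : ℝ} (e : fl1 s' x = fl1 s' y) : fl1 s x = fl1 s y :=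
  congrFun (Stk.fl_of_fl h (fun _ : Unit => x) (fun _ : Unit => y) (funext fun _ => e)) ()

theorem fl1_succ (m : ℕ) (v : Ω → ℝ) (b : ℕ) (ω : Ω) :
    fl1 (m * (b + 1)) (v ω) = yb m v b ω + 2 ^ m * fl1 (m * b) (v ω) := by
  unfold yb
  ring

/-- the past is nested and determines the earlier blocks -/
theorem pst_nest (m : ℕ) (v : Ω → ℝ) (Wd : Ω → δ) (b : ℕ) {ω ω' : Ω} (e : pst m v Wd (b + 1) ω = pst m v Wd (b + 1) ω') :
    pst m v Wd b ω = pst m v Wd b ω' ∧ yb m v b ω = yb m v b ω' := by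
  unfold pst at e ⊢
  obtain ⟨e1, e2⟩ := Prod.mk.inj e
  have e3 : fl1 (m * b) (v ω) = fl1 (m * b) (v ω') := fl1_mono (Nat.mul_le_mul_left m (Nat.le_succ b)) e2
  exact ⟨Prod.ext e1 e3, by unfold yb; rw [e2, e3]⟩

theorem pst_mono (m : ℕ) (v : Ω → ℝ) (Wd : Ω → δ) {b b' : ℕ} (h : b ≤ b') {ω ω' : Ω}
    (e : pst m v Wd b' ω = pst m v Wd b' ω') : pst m v Wd b ω = pst m v Wd b ω' := by
  unfold pst at e ⊢
  obtain ⟨e1, e2⟩ := Prod.mk.inj e
  exact Prod.ext e1 (fl1_mono (Nat.mul_le_mul_left m h) e2)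

variable [Fintype Ω]

/-- **the entropies of the blocks telescope** -/
theorem sum_yb (P : Law Ω) (m : ℕ) (v : Ω → ℝ) (Wd : Ω → δ) (B : ℕ) :
    Stk.hc P (fun ω => fl1 (m * B) (v ω)) Wd =
      Stk.hc P (fun ω => fl1 0 (v ω)) Wd + ∑ b ∈ range B, Stk.hc P (yb m v b) (pst m v Wd b) := by
  induction B with
  | zero => simp
  | succ B ih =>
    rw [Finset.sum_range_succ, ← add_assoc, ← ih]
    have e1 : Stk.hc P (fun ω => fl1 (m * (B + 1)) (v ω)) Wd =
        Stk.hc P (fun ω => (fl1 (m * B) (v ω), yb m v B ω)) Wd := by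
      refine Stk.hc_congr P ?_ ?_ (fun _ _ _ _ e => e) (fun _ _ _ _ e => e)
      · intro ω ω' _ _ e
        simp only [Prod.mk.injEq] at e
        show fl1 (m * (B + 1)) (v ω) = fl1 (m * (B + 1)) (v ω')
        rw [fl1_succ, fl1_succ, e.1.1, e.1.2]
      · intro ω ω' _ _ e
        simp only [Prod.mk.injEq] at e
        have e2 : fl1 (m * B) (v ω) = fl1 (m * B) (v ω') := fl1_mono (Nat.mul_le_mul_left m (Nat.le_succ B)) e.1
        refine Prod.ext e2 ?_
        show yb m v B ω = yb m v B ω'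
        unfold yb
        rw [e.1, e2]
    rw [e1, Stk.hc_pair]
    have e3 : Stk.hc P (yb m v B) (fun ω => (fl1 (m * B) (v ω), Wd ω)) = Stk.hc P (yb m v B) (pst m v Wd B) := by
      refine Stk.hc_congr P (fun _ _ _ _ e => (Prod.mk.inj e).1) (fun _ _ _ _ e => (Prod.mk.inj e).1) ?_ ?_
      · intro ω ω' _ _ e
        unfold pst at e
        simp only [Prod.mk.injEq] at e ⊢
        exact ⟨e.2, e.1⟩
      · intro ω ω' _ _ e
        unfold pst
        simp only [Prod.mk.injEq] at e ⊢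
        exact ⟨e.2, e.1⟩
    rw [e3]

theorem hc_fl1_zero (P : Law Ω) {v : Ω → ℝ} (hv : ∀ ω, 0 < P.w ω → |v ω| ≤ 2) (Wd : Ω → δ) :
    Stk.hc P (fun ω => fl1 0 (v ω)) Wd ≤ Real.log 5 := by
  have h := Stk.hc_le_log P (fun ω => fl1 0 (v ω)) Wd 5 (fun ω _ => ⟨Finset.Icc (-2) 2, by decide, fun ω' hω' _ => by
    have h1 := abs_le.1 (hv ω' hω')
    rw [Finset.mem_Icc]
    unfold fl1
    rw [pow_zero, one_mul]
    constructor
    · exact Int.le_floor.2 (by push_cast; linarith)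
    · have : ⌊v ω'⌋ < 3 := Int.floor_lt.2 (by push_cast; linarith)
      omega⟩)
  exact_mod_cast h

end blocks

end H565

open H565

/-- **YG (ii)** : the input `YBl` of the joint selection from one lower bound of the entropy of the digits of `v` -/
theorem ybl_of {Ω δ : Type} [Fintype Ω] (P : Law Ω) {v : Ω → ℝ} (hv : ∀ ω, 0 < P.w ω → |v ω| ≤ 2) (Wd : Ω → δ) {m B : ℕ}
    {a μ : ℝ} (ha : Real.log 2 + Real.log (1 / a) ≤ μ / 4 * (m * Real.log 2))
    (hg : μ * B * (m * Real.log 2) + Real.log 5 ≤ Stk.hc P (fun ω => fl1 (m * B) (v ω)) Wd) :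
    YBl P B (2 ^ m) a μ (yb m v) (pst m v Wd) := by
  have hl : Real.log (((2 ^ m : ℕ) : ℝ)) = m * Real.log 2 := by
    push_cast
    rw [Real.log_pow]
  refine ⟨?_, ?_, ?_, ?_⟩
  · intro b _
    refine ⟨Finset.Ico 0 (2 ^ m), ?_, fun ω _ => ?_⟩
    · have e : (Finset.Ico (0 : ℤ) (2 ^ m)).card = 2 ^ m := by
        rw [Int.card_Ico, sub_zero]
        have : ((2 : ℤ) ^ m) = ((2 ^ m : ℕ) : ℤ) := by push_cast; rfl
        rw [this, Int.toNat_natCast]
      exact e.le
    · rw [Finset.mem_Ico]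
      exact yb_mem m v b ω
  · intro b _ ω ω' _ _ e
    exact pst_nest m v Wd b e
  · rw [hl]
    exact ha
  · rw [hl]
    have h1 := sum_yb P m v Wd B
    have h2 := hc_fl1_zero P hv Wd
    linarith

/-- the same with the numbers of the composition: growth rate `r` of the digits, error `g` -/
theorem ybl_grow {Ω δ : Type} [Fintype Ω] (P : Law Ω) {v : Ω → ℝ} (hv : ∀ ω, 0 < P.w ω → |v ω| ≤ 2) (Wd : Ω → δ) {m B : ℕ}
    {a μ r g : ℝ} (ha : Real.log 2 + Real.log (1 / a) ≤ μ / 4 * (m * Real.log 2))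
    (hg : r * (m * B : ℕ) * Real.log 2 ≤ Stk.hc P (fun ω => fl1 (m * B) (v ω)) Wd + g)
    (hb : g + Real.log 5 ≤ (r - μ) * (m * B : ℕ) * Real.log 2) :
    YBl P B (2 ^ m) a μ (yb m v) (pst m v Wd) := by
  refine ybl_of P hv Wd ha ?_
  push_cast at hg hb ⊢
  nlinarith

section translation

variable {Ω δ : Type} [Fintype Ω]

/-- the two definitions of the collision probability agree -/
theorem colp_mic {S T : Type} (Q : Law Ω) (X : Ω → S) (C : Ω → T) : YPat.colp Q X C = Mic.colp Q X C := rfl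

/-- the digits of `v` at any level `≥ m (b + 1)`, given any letter which is a function of the past of the block -/
theorem colp_fl1_le (Q : Law Ω) (m : ℕ) (v : Ω → ℝ) (Wd : Ω → δ) (b : ℕ) {n : ℕ} (hn : m * (b + 1) ≤ n) {T : Type} (C : Ω → T)
    (hC : Fn Q C (pst m v Wd b)) :
    Mic.colp Q (fun ω => fl1 n (v ω)) C ≤ YPat.colp Q (yb m v b) (pst m v Wd b) := by
  rw [colp_mic]
  refine (Mic.colp_mono_cond Q _ hC).trans (Mic.colp_mono_var Q _ ?_)
  intro ω ω' _ _ e
  simp only [Prod.mk.injEq] at e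
  unfold pst at e
  simp only [Prod.mk.injEq] at e
  unfold yb
  rw [fl1_mono hn e.1, e.2.2]

end translation

end Vale.Agent.P106.U
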