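import Vale.Agent.P106.U.S5.Run
import Vale.Agent.P106.U.H449.RayRun
import Vale.Agent.P106.U.H823.NumG
import Vale.Agent.P106.U.H824.OkW
import Vale.Agent.P106.U.H465.FWn
import Vale.Agent.P106.U.H465.CloG
import Vale.Agent.P106.U.H565.YGrow

/-!
# P106 / U / H565 : the concrete run, second version (one cap, closure letter; helper565)

Blocks of `m` digits, numbers of helper523 (`I : Nums.Inp`, `κ0 = I.kb`, word 1 with `I.pm`).

* `C0` : a system in normal form (total law), rotation, start strip `d0`, threshold and delay of word 1.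
* `C1` : the law `Q1` with the value `E1` of word 1.
* `C2` : the law `Q`, the cap `b1`, the letter `G` of the closure at the cap, the slopes `g a`, the precisions `RC a` of the second
  word (blocks, all levels; continued above `I.ha` by helper823's `ext`).
* `C2.D` : 823's path; `C2.inp` : input of 785's letter; `C2.run` : the record `S3.Run`; `C2.num` : its numbers.
-/

set_option autoImplicit false

namespace Vale.Agent.P106.U.H565

open Finset Vale.Agent.P127 Vale.Agent.P127.Stk Vale.Agent.P127.U Vale.Agent.P106.W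
open Vale.Agent.P106.K (Ry RyOk bl Bin)
open Vale.Agent.P127.U.CellD (q2 rd)
open Vale.Agent.P106.U Vale.Agent.P106.U.H449 Vale.Agent.P106.U.StripL Vale.Agent.P106.U.StripE
open Vale.Agent.P106.U.LinkR Vale.Agent.P106.U.InsL Vale.Agent.P106.U.InpC

/-- **data before the words** : system, rotation, start strip, numbers, delay and threshold of word 1 -/
structure C0 (Ω : Type) [Fintype Ω] where
  P : Law Ω
  l : Ω → Ry
  t : Ω → ℝ
  W : Ω → Cbx
  L : ℕ
  I : H523.Nums.Inp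
  θ : ℝ
  d0 : Ld
  Md : ℕ
  thr : ℝ

namespace C0

variable {Ω : Type} [Fintype Ω] (c : C0 Ω)

/-- rounded time -/
noncomputable def tW (ω : Ω) : ℝ := rd c.I.h (c.t ω)

/-- functional of the label at the time `tW` -/
noncomputable def FW (ω : Ω) : Cell.Fu := H786.Adp.FW c.θ c.I.h (c.W ω) (c.t ω)

/-- `κ` of the label at the time `tW` -/
noncomputable def κ (ω : Ω) : ℝ := (c.FW ω).ka

/-- own slope of the label -/
noncomputable def pp (ω : Ω) : ℝ := H465.FWn.pW c.θ c.I.h (c.W ω) (c.l ω) (c.t ω)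

/-- direction -/
noncomputable def v (ω : Ω) : ℝ := (H786.Adp.toR c.θ (c.l ω)).v

/-- label and time -/
noncomputable def Wd (ω : Ω) : Cbx × ℤ := (c.W ω, fl1 c.I.h (c.t ω))

/-- the past of the `y`-block `b` (literally `S3.Run.F`) -/
noncomputable def Fy (b : ℕ) : Ω → (Cbx × ℤ) × ℤ := pst c.I.m c.v c.Wd b

/-- the `y`-block (literally `S3.Run.Y`) -/
noncomputable def Yb (b : ℕ) : Ω → ℤ := yb c.I.m c.v b

/-- the rule of word 1 -/
noncomputable def rule : Rl Ω 2 (ℤ × ℤ) (Option (ℤ × ℤ)) (Ry × ℤ) Unit :=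
  OkW.eW c.I.m c.I.kb c.d0 c.θ c.I.h c.l c.t c.W c.Md c.P c.I.pm c.thr

/-- word 1 -/
noncomputable def w1 (ω : Ω) : List (Lt 2) := c.rule.wd c.P c.I.pm.n ω

/-- letter of the ray side at the time level `a` (blocks) -/
noncomputable def Ua (E : List (Lt 2)) (a : ℕ) : Ω → ℤ × S1 :=
  Ray.Ur c.I.m c.I.kb c.d0 c.tW c.κ c.pp c.l c.Md c.P c.I.pm c.thr c.I.pm.n E a

/-- slope of the line of the ray side at the time level `a`, units of the letter, sign of `Cell.Fu.al` -/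
noncomputable def ala (E : List (Lt 2)) (a : ℕ) : Ω → ℝ :=
  Ray.alr c.I.m c.I.kb c.d0 c.tW c.κ c.pp c.l c.Md c.P c.I.pm c.thr c.I.pm.n E a

/-- relative slope (base `2^m`, margin `0`) : the variable of the classes of the closure -/
noncomputable def alR (E : List (Lt 2)) (a : ℕ) : Ω → ℝ :=
  LinkR.alR c.I.m c.d0 c.rule c.P c.I.pm.n E a

/-- **facts before the words** (`Rm` digits of the common normal, `NS` start values of the own slope) -/
structure Ok (Rm NS : ℕ) (K1 : ℝ) (N0 : ℕ) : Prop where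
  m6 : 6 ≤ c.I.m
  /-- the system -/
  sys : ∀ ω, 0 < c.P.w ω → RyOk (c.l ω) ∧ 0 ≤ c.t ω ∧ c.t ω < 1
  w0 : ∀ ω, 0 < c.P.w ω → H428.W0 (1 / 1000) c.I.h c.I.q (c.W ω) (c.l ω) (c.t ω)
  lab : ∀ ω, 0 < c.P.w ω → LbOk (1 / 1000) c.L c.I.h (c.W ω) (c.l ω) (c.t ω) ∧ (c.W ω).u2 = 1 ∧
    (c.W ω).u1 = (1 / 2 : ℝ) ^ c.I.q
  /-- the normals -/
  n0 : ∀ ω, 0 < c.P.w ω → |nrm (c.W ω) (bl c.I.h (c.l ω) (c.t ω)) 0 + Real.sin c.θ| ≤ (1 / 2 : ℝ) ^ Rm
  n1 : ∀ ω, 0 < c.P.w ω → |nrm (c.W ω) (bl c.I.h (c.l ω) (c.t ω)) 1 - Real.cos c.θ| ≤ (1 / 2 : ℝ) ^ Rm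
  /-- the start strip -/
  s0 : c.d0.s0 = 0
  a0 : c.d0.a = 0
  k0 : c.d0.k = c.I.m * c.I.kb
  al0 : |c.d0.al| ≤ 1
  in0 : ∀ ω, c.d0.In (c.tW ω) (c.κ ω)
  /-- the own slope at the start -/
  NS : H823.Few c.P (fun ω => fl1 (c.I.m * c.I.kb) (c.pp ω)) c.l NS
  /-- the numbers -/
  good : c.I.Good K1 N0
  Md2 : c.I.pm.M + 2 ≤ c.Md
  thr0 : 0 < c.thr
  thr1 : c.thr < 1

end C0

/-- **data after word 1** -/
structure C1 (Ω : Type) [Fintype Ω] extends C0 Ω where
  K1 : ℝ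
  N0 : ℕ
  good : toC0.I.Good K1 N0
  Q1 : Law Ω
  /-- value and weight of word 1 -/
  E1 : List (Lt 2)
  x1 : ℝ
  cn : Cn toC0.rule toC0.P Q1 toC0.I.pm.n E1 x1

/-- **data at the cap** : closure letter, slopes, second word; `Q` the final law, `x2` its weight in `Q1` -/
structure C2 (Ω : Type) [Fintype Ω] extends C1 Ω where
  Q : Law Ω
  x2 : ℝ
  cn2 : Cn toC0.rule toC0.P Q toC0.I.pm.n E1 (x1 * x2)
  b1 : ℕ
  /-- the letter of the closure at the cap -/
  G : Ω → Set Ω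
  /-- relative slopes of the letter, function of `G` -/
  g : ℕ → Ω → ℝ
  /-- the second word (blocks), margin -/
  RC : ℕ → ℕ
  s : ℕ
  w2 : H823.NumG.W2 (Rw toC0.I.pm.n E1 1) RC s
  /-- margin of the numbers -/
  ps : ℕ
  /-- offsets -/
  o : Fin 7 → ℝ
  /-- offsets of the roundings of `κ`, `γ`, of the position -/
  oK : ℝ
  oG : ℝ
  oN : ℝ

namespace C2

variable {Ω : Type} [Fintype Ω] (c : C2 Ω)

/-- **the path** (823) -/
noncomputable def D : H823.PathNum.PN := H823.NumG.pnGI c.good Dt.is c.cn2 c.w2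

/-- **input of the letter** (785, 824) -/
noncomputable def inp : S3.PthW.Inp Ω :=
  InpW.inp c.D c.θ c.I.h (c.I.m * c.I.B) c.o c.oK c.oG c.oN c.l c.t c.W c.I.m c.d0 c.g

/-- **the record** -/
noncomputable def run : S3.Run Ω (List (ℤ × ℤ × ℤ × ℤ)) (ℤ × S1) where
  m := c.I.m
  L := c.L
  h := c.I.h
  q := c.I.q
  r0 := c.I.rs
  P := c.P
  Q := c.Q
  pw := c.x1 * c.x2
  ry := c.l
  t := c.t
  W := c.W
  θ := c.θ
  FW := c.FW
  C := c.inp.pth
  U := fun i => c.Ua c.E1 (c.D.li i)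
  rI := c.D.lI
  al := fun i => c.ala c.E1 (c.D.li i)
  V := fun i => Ray.Vr c.I.m c.I.kb c.d0 c.tW c.κ c.pp c.l c.Md c.P c.I.pm c.thr c.I.pm.n c.E1 (c.D.li i)
  n := c.D.n
  b1 := c.b1
  W' := c.G

/-- **the numbers of the record** (digits) -/
noncomputable def num : S3.Run.Num := { c.I.num with s := c.ps }

end C2

end Vale.Agent.P106.U.H565
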