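import Vale.Agent.P106.U.H459.RRc
import Vale.Agent.P106.U.H523.SwRec
import Vale.Agent.P106.U.H652.RunB
import Vale.Agent.P106.U.H565.PF2
import Vale.Agent.P106.U.H428.RunPt

/-!
# P106 / U / H565 : from the data at the cap to `RA ∨ RR` (helper565)

* `C2.Mid` : everything which is known at the cap.
* `end_c` : `RA` (exit by the time, record extended by the history letter) or `RR` (helper459).
-/

set_option autoImplicit false

namespace Vale.Agent.P106.U.H565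

open Finset Vale.Agent.P127 Vale.Agent.P127.Stk Vale.Agent.P127.U Vale.Agent.P106.W
open Vale.Agent.P106.K (Ry RyOk bl Bin)
open Vale.Agent.P127.U.CellD (q2 rd q2_pos q2_le)
open Vale.Agent.P106.U Vale.Agent.P106.U.H449 Vale.Agent.P106.U.StripL Vale.Agent.P106.U.StripE
open Vale.Agent.P106.U.LinkR Vale.Agent.P106.U.InsL Vale.Agent.P106.U.InpC
open Vale.Agent.P106.U.H523.SwRec Vale.Agent.P106.U.H652.RunB

/-- the slope of the path is right on the whole support -/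
theorem C2.kn0 {Ω : Type} [Fintype Ω] {c : C2 Ω} {Rm : ℕ} {cc : ℝ} {Ac rc : ℕ} (H : c.Hyp Rm cc Ac rc) {K : ℝ}
    (hK : 648 ≤ K) : ∀ i ≤ c.run.n + c.num.J, ∀ ω, 0 < c.run.Q.w ω →
      |(c.run.C.F i ω).al - c.run.al i ω| * q2 (c.run.C.a i) ≤ K * q2 (c.run.C.rk i) := by
  intro i hi ω hω
  have h1 := kno_of ((C2.hasW H).ls (c.run.n + c.num.J)) hi (K' := K) (by linarith)
  by_contra hcon
  push Not at hcon
  refine absurd h1 (not_le.2 ?_)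
  unfold prE
  refine Finset.sum_pos' (fun x _ => c.Q.nn x) ⟨ω, ?_, hω⟩
  simp only [mem_filter, mem_univ, true_and]
  exact hcon

/-- **the data at the cap** -/
structure C2.Mid {Ω : Type} [Fintype Ω] (c : C2 Ω) (σ : S5.Cst) (g : S5.Gv) (ρ : S5.Thr) (ε T kL D : ℝ) (m B : ℕ)
    (Rm Ac rc : ℕ) : Prop where
  hyp : c.Hyp Rm ρ.c' Ac rc
  eC1 : c.I.C1 = σ.C1
  eδ1 : c.I.δ1 = σ.δ1
  em : c.I.m = m
  eB : c.I.B = B
  eJ : c.I.J = ρ.J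
  eK1 : c.K1 = σ.K1 + 1 / 2
  eps : c.ps = 4
  /-- near-extremal -/
  nex : NEx 100 σ.lam σ.N g.k g.β ε c.Q c.l c.t (fun _ => ()) c.L c.I.h c.I.q c.W
  /-- the past, the prices -/
  W0 : Fn c.Q (c.Fy c.b1) c.G
  prW : Stk.hc c.Q c.G (c.Fy c.b1) ≤ ε * c.I.h
  prU : Stk.hc c.run.Q (c.run.U 0) c.run.ry + ∑ i ∈ range (c.run.n + c.num.J), Stk.hc c.run.Q (c.run.U (i + 1))
    (fun ω => (c.run.Z i ω, fl1 (c.run.C.a (i + 1)) (c.run.t ω))) ≤ ε * c.I.h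
  gN1 : gN c ≤ ε * c.I.h
  gN2 : gN c ≤ σ.δ1 * c.I.h
  lp : Real.log (1 / (c.x1 * c.x2)) ≤ ε * c.I.h
  /-- the cap -/
  cap : c.run.Cap c.num B ε
  b1 : c.b1 ≤ c.I.B1b
  /-- light blocks -/
  light : c.run.Light c.num (T * (c.I.h / c.I.m)) (kL / c.I.m)
  lg : kL / c.I.m * ((4 * c.I.J + 1) * gN c) ≤ T * (c.I.h / c.I.m)
  /-- 425's `SwA` -/
  sw1 : H425.SwA D (H425.C1 σ.lam) (la (8 * σ.δ1) c.I.h) c.I.h c.I.q c.Q c.l c.t c.W
  sw2 : H425.SwA D (H425.C1 σ.lam) (la (Real.sqrt σ.θ) c.I.h) c.I.h c.I.q c.Q c.l c.t c.W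
  κ1 : ∀ ω, 0 < c.Q.w ω → |(c.W ω).κ| ≤ 1
  q10 : 10 * σ.C1 * σ.δ1 * c.I.h ≤ c.I.q
  rs : 110 ≤ c.I.rs
  rm : 100 * (m * B) ≤ c.I.rs
  /-- the field `f2` -/
  f2 : ∃ (ξ : Type) (X : ℕ → Ω → ξ) (hX : ∀ i ω ω', X (i + 1) ω = X (i + 1) ω' → X i ω = X i ω'),
    (∀ i ≤ c.run.n + c.num.J, Fn c.run.Q (X i) c.run.W') ∧
    (∀ i ≤ c.run.n + c.num.J, Fn c.run.Q (X i) (c.run.Z i)) ∧
    ∃ (π : Type) (bS bV : ℕ) (F : S3.Pf (c.run.ext X hX) π) (Vs Xs : Finset ℕ),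
      S3.F2 (c.run.ext X hX) c.num ρ.K B bS bV F Vs Xs

/-- **`RA ∨ RR`** -/
theorem end_c {σ : S5.Cst} (hσ : σ.Ok) {K D T : ℝ} (hD : 0 ≤ D) (hK : 648 ≤ K) (hKM : H459.cM 100 648 ≤ K) (hK15 : K ≤ 10 ^ 15)
    (hT : 0 < T) {kL : ℝ} (hk : 0 ≤ kL) :
    ∃ h0 : ℕ, ∀ {ε : ℝ} {ρ : S5.Thr} {g : S5.Gv} {m B : ℕ} {Ω : Type} [Fintype Ω] (c : C2 Ω) {Rm Ac rc : ℕ} (S : Cbx),
      ρ.K = K → 0 ≤ ρ.c' → ρ.c' ≤ ε → T ≤ ε ^ 2 * ρ.c' * σ.δ1 / (1000 * ρ.K ^ 8) →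
      c.Mid σ g ρ ε T kL D m B Rm Ac rc → h0 ≤ c.I.h →
      ∃ Rn : ℕ, S5.RA σ ε ρ g m B c.Q c.l c.t c.L c.I.h c.I.q c.I.rs Rn c.W S ∨
        S5.RR σ ε ρ g m B c.Q c.l c.t c.L c.I.h c.I.q c.I.rs Rn c.W S := by
  obtain ⟨DR, jR, hDR, hRR⟩ := H459.rr_c
  have hK1 : 1 ≤ K := by linarith
  obtain ⟨jS, hS, hSw⟩ := sw_run σ hσ K D hK1 hD
  have hδ := hσ.δ0
  have hθ := hσ.θ0
  obtain ⟨n1, hn1⟩ := exists_nat_gt ((jR : ℝ) / (σ.θ / 2))
  obtain ⟨n2, hn2⟩ := exists_nat_gt ((DR + 3) / σ.δ1)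
  refine ⟨max hS (max n1 n2), ?_⟩
  intro ε ρ g m B Ω _ c Rm Ac rc S hρK hc0 hcε hT2 H hh
  have hh1 : hS ≤ c.I.h := (le_max_left _ _).trans hh
  have hh2 : (n1 : ℝ) ≤ c.I.h := by exact_mod_cast ((le_max_left _ _).trans (le_max_right _ _)).trans hh
  have hh3 : (n2 : ℝ) ≤ c.I.h := by exact_mod_cast ((le_max_right _ _).trans (le_max_right _ _)).trans hh
  have hj : (jR : ℝ) ≤ σ.θ / 2 * c.I.h := by
    have h1 := hn1.le.trans hh2
    rw [div_le_iff₀ (by positivity)] at h1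
    linarith
  have hDh : DR + 3 ≤ σ.δ1 * c.I.h := by
    have h1 := hn2.le.trans hh3
    rw [div_le_iff₀ hδ] at h1
    linarith
  have hmr : (0 : ℝ) < c.I.m := m_pos H.hyp
  have hh0 : (0 : ℝ) ≤ c.I.h := Nat.cast_nonneg _
  have hε0 : 0 ≤ ε * c.I.h := (gN_nonneg c).trans H.gN1
  have ok : ∀ K' : ℝ, 648 ≤ K' → c.run.Ok c.num K' ρ.c' (gN c) (ε * c.I.h) := fun K' hK' =>
    C2.ok H.hyp hK' hc0 H.W0 H.prW le_rfl H.prU le_rfl
  have okK := ok K hK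
  refine ⟨c.run.C.rk c.run.n, ?_⟩
  rcases lt_or_ge (c.run.C.a c.run.n : ℝ) ((1 - σ.θ) * c.I.h) with ha | ha
  · -- exit by the precision
    refine Or.inr (hRR c c.I.rs _ S H.hyp (ok 648 le_rfl) H.nex hσ H.eC1 H.eδ1 ?_ H.b1 ha hj hDh H.gN2 le_rfl)
    rw [hρK]
    exact hKM
  · -- exit by the time
    left
    have hrk0 : 2 * K ^ 2 * q2 (c.run.C.rk 0) ≤ 1 := by
      have h1 : c.run.C.rk 0 = c.I.rs := okK.pth.k0
      rw [h1]
      have h2 := q2_le H.rs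
      have h3 : q2 110 ≤ 1 / 10 ^ 33 := by
        unfold q2
        norm_num
      have h5 : K ^ 2 ≤ (10 ^ 15 : ℝ) ^ 2 := by gcongr
      have h4 : 2 * K ^ 2 * q2 c.I.rs ≤ 2 * (10 ^ 15 : ℝ) ^ 2 * (1 / 10 ^ 33) :=
        mul_le_mul (by linarith) (h2.trans h3) (q2_pos _).le (by positivity)
      refine h4.trans ?_
      norm_num
    obtain ⟨s1, s2, s3, s4, s5, s6, s7, s8⟩ := hSw okK hrk0 (fun ω hω => (H.κ1 ω hω).trans hK1) hh1 H.q10 H.sw1 H.sw2 K hK1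
    obtain ⟨ξ, X, hX, x1, x2, π, bS, bV, F, Vs, Xs, f2⟩ := H.f2
    have hle := le_num (h := c.I.h) (m := c.I.m) hT2
    have N := numF (σ := σ) (ε := ε) (ps := c.ps) c.good H.eK1 H.eC1 H.eδ1
    obtain ⟨C1', δ1', m', B', J', -⟩ := (⟨H.eC1, H.eδ1, H.em, H.eB, H.eJ, trivial⟩ : c.I.C1 = σ.C1 ∧ c.I.δ1 = σ.δ1 ∧
      c.I.m = m ∧ c.I.B = B ∧ c.I.J = ρ.J ∧ True)
    subst m'
    subst B'
    subst hρK
    refine ⟨_, _, c.run.ext X hX, c.num, gN c, ε * c.I.h, T * (c.I.h / c.I.m), kL / c.I.m, la (8 * σ.δ1) c.I.h,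
      pr σ.C1 (8 * σ.δ1) jS c.I.h c.I.q, ?_⟩
    exact {
      hm := rfl
      hL := rfl
      hh := rfl
      hq := rfl
      hr0 := rfl
      hQ := rfl
      hry := rfl
      ht := rfl
      hW := rfl
      hRn := rfl
      hμ := rfl
      hJ := J'
      hs := by
        have h1 : (c.num).s = 4 := H.eps
        rw [h1]
        omega
      ok := S3.Run.Ok.ext okK x1 x2
      light := S3.Run.Light.ext H.light
      cap := S3.Run.Cap.ext H.cap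
      sw := S3.Run.swF_ext s1
      qr := N.qr
      A1 := N.A1
      A2 := N.A2
      QK1 := N.QK1
      QK2 := N.QK2
      B1 := N.B1
      QF2 := N.QF2
      sw1 := s3
      sw2 := s4
      sw3 := s5
      lev2 := ⟨la (Real.sqrt σ.θ) c.I.h, pr σ.C1 (Real.sqrt σ.θ) jS c.I.h c.I.q, s2.imp id S3.Run.swF_ext, s6,
        s7.trans (by
          have h1 : 0 ≤ σ.C1 * Real.sqrt σ.θ * c.I.h := by
            have h2 : 0 ≤ σ.C1 := by
              have := hσ.bs.lam0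
              show 0 ≤ 1000 / σ.lam + 1
              positivity
            positivity
          show (pr σ.C1 (Real.sqrt σ.θ) jS c.I.h c.I.q : ℝ) + 2 * σ.C1 * Real.sqrt σ.θ * c.I.h ≤ _
          nlinarith), s8⟩
      rm := H.rm
      aA := H428.RunPt.an_A' c
      ex := ha
      e0 := by positivity
      κ0 := by positivity
      g'0 := gN_nonneg c
      gU0 := hε0
      g'1 := H.gN1
      gU1 := le_rfl
      le := hle
      lg := by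
        have h1 : (c.num.J : ℝ) = c.I.J := rfl
        rw [h1]
        exact H.lg.trans hle
      lp := H.lp
      c'e := hcε
      kn0 := C2.kn0 H.hyp hK
      f2 := ⟨π, bS, bV, F, Vs, Xs, f2⟩ }

end Vale.Agent.P106.U.H565
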