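import Vale.Agent.P106.U.H565.SelA

/-!
# P106 / U / H565 : selection of ONE word, joint word of the path and of the `y`-blocks (helper565)

* `ypat P B Y F a ω` : the blocks `b < B` of surprisal `≥ log (1/a)` given their past.
* `ypat_weight` : if `∑ H(Y b | F b) ≥ μ B log Nb`, many blocks are active with probability `≥ μ / 2`.
* `psel` : near-extremal system + path word `Pw` (at most `M` values) + growth of the `y`-blocks ⇒ one joint word `e`,
  `Q = P(. | e)` near-extremal, `P(e) ≥ μ / (2 (#s + 3) M 2^B)`, the active blocks are `≥ (μ/4) B` many, their surprisals under `P` are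
  `≥ log (1/a)` on the support of `Q`, and all but few have a small collision probability under `Q`.
-/

set_option autoImplicit false

namespace Vale.Agent.P106.U

open Finset Vale.Agent.P127 Vale.Agent.P127.Stk Vale.Agent.P127.U Vale.Agent.P106.W Vale.Agent.P106.K
open Vale.Agent.P127.U.Nonat Vale.Agent.P127.U.YPat Vale.Agent.P127.U.JSB

namespace H565

section ypat

variable {Ω : Type} [Fintype Ω] {S T U : Type}

open Classical in
/-- the active blocks -/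
noncomputable def ypat (P : Law Ω) (B : ℕ) (Y : ℕ → Ω → T) (F : ℕ → Ω → U) (a : ℝ) (ω : Ω) : Finset ℕ :=
  (range B).filter fun b => cp P (Y b) (F b) ω ≤ a

theorem mem_ypat {P : Law Ω} {B : ℕ} {Y : ℕ → Ω → T} {F : ℕ → Ω → U} {a : ℝ} {ω : Ω} {b : ℕ} :
    b ∈ ypat P B Y F a ω ↔ b < B ∧ cp P (Y b) (F b) ω ≤ a := by
  classical
  unfold ypat
  rw [Finset.mem_filter, Finset.mem_range]

theorem ypat_card (P : Law Ω) (B : ℕ) (Y : ℕ → Ω → T) (F : ℕ → Ω → U) (a : ℝ) (ω : Ω) :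
    ((ypat P B Y F a ω).card : ℝ) = ∑ b ∈ range B, Law.ind (cp P (Y b) (F b) ω ≤ a) := by
  classical
  unfold ypat
  rw [Finset.card_filter]
  push_cast
  refine Finset.sum_congr rfl fun b _ => ?_
  by_cases h : cp P (Y b) (F b) ω ≤ a
  · rw [Law.ind_of h, if_pos h]
  · rw [Law.ind_not h, if_neg h]

theorem ypat_sub (P : Law Ω) (B : ℕ) (Y : ℕ → Ω → T) (F : ℕ → Ω → U) (a : ℝ) (ω : Ω) :
    ypat P B Y F a ω ⊆ range B := Finset.filter_subset _ _

/-- number of the joint words -/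
theorem img_joint (P : Law Ω) (B : ℕ) (Y : ℕ → Ω → T) (F : ℕ → Ω → U) (a : ℝ) (Pw : Ω → S) {M : ℕ}
    (hM : (img Pw).card ≤ M) : (img fun ω => (Pw ω, ypat P B Y F a ω)).card ≤ M * 2 ^ B := by
  classical
  have h1 : (img fun ω => (Pw ω, ypat P B Y F a ω)) ⊆ img Pw ×ˢ (range B).powerset := by
    intro x hx
    obtain ⟨ω, rfl⟩ := mem_img.1 hx
    exact Finset.mem_product.2 ⟨mem_img.2 ⟨ω, rfl⟩, Finset.mem_powerset.2 (ypat_sub P B Y F a ω)⟩
  refine (Finset.card_le_card h1).trans ?_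
  rw [Finset.card_product, Finset.card_powerset, Finset.card_range]
  exact Nat.mul_le_mul_right _ hM

/-- **weight of the words with many active blocks** -/
theorem ypat_weight (P : Law Ω) {B N : ℕ} (hB : 0 < B) (hN1 : 1 < N) (Y : ℕ → Ω → T) (F : ℕ → Ω → U) {a μ : ℝ}
    (ha : 0 < a) (ha1 : a ≤ 1) (hμ : 0 ≤ μ)
    (hN : ∀ b, b < B → ∃ G : Finset T, G.card ≤ N ∧ ∀ ω, 0 < P.w ω → Y b ω ∈ G)
    (hthr : Real.log 2 + Real.log (1 / a) ≤ μ / 4 * Real.log N)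
    (hG : μ * B * Real.log N ≤ ∑ b ∈ range B, hc P (Y b) (F b)) :
    μ / 2 ≤ prE P (fun ω => μ / 4 * B ≤ ((ypat P B Y F a ω).card : ℝ)) := by
  have hBr : (0 : ℝ) < B := by exact_mod_cast hB
  have hNr : (1 : ℝ) < N := by exact_mod_cast hN1
  have hlN : 0 < Real.log N := Real.log_pos hNr
  have h1 := count_ge P B N Y F ha ha1 hN
  have h2 : (fun ω => ∑ b ∈ range B, Law.ind (cp P (Y b) (F b) ω ≤ a)) =
      fun ω => ((ypat P B Y F a ω).card : ℝ) := by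
    funext ω
    rw [ypat_card]
  rw [h2] at h1
  have h3 : (B : ℝ) * (Real.log 2 + Real.log (1 / a)) ≤ B * (μ / 4 * Real.log N) :=
    mul_le_mul_of_nonneg_left hthr hBr.le
  have h4 : 3 / 4 * μ * B * Real.log N ≤ P.ex (fun ω => ((ypat P B Y F a ω).card : ℝ)) * Real.log N := by
    refine le_trans ?_ h1
    have : 3 / 4 * μ * B * Real.log N = μ * B * Real.log N - B * (μ / 4 * Real.log N) := by ring
    linarith
  have h5 : 3 / 4 * μ * B ≤ P.ex (fun ω => ((ypat P B Y F a ω).card : ℝ)) := le_of_mul_le_mul_right h4 hlN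
  have h6 := prE_ge_of_ex P (fun ω => ((ypat P B Y F a ω).card : ℝ)) (M := B) (x := μ / 4 * B) hBr (by positivity)
    (fun ω _ => by
      have := Finset.card_le_card (ypat_sub P B Y F a ω)
      rw [Finset.card_range] at this
      exact_mod_cast this)
  refine le_trans ?_ h6
  rw [le_div_iff₀ hBr]
  linarith

end ypat

end H565

open H565

/-- **PSel** : ONE word for the path and the `y`-blocks -/
theorem psel {c lam N k β β' : ℝ} (hc : 1 ≤ c) (h0 : 0 ≤ lam) (h1 : lam ≤ 1) (hN : 0 ≤ N) (hk : 0 ≤ k)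
    (hββ : β ≤ β') (hF : FIX c lam N k β') {ε : ℝ} (hε : 0 < ε) :
    ∃ K : ℝ, 0 ≤ K ∧ ∀ (Ω : Type) [Fintype Ω] (γ : Type) (P : Law Ω) (l : Ω → Ry) (t : Ω → ℝ) (C : Ω → γ)
      (L h q : ℕ) (W : Ω → Cbx) (d : ℝ), NEx c lam N k β d P l t C L h q W →
      -- the path word
      ∀ (S : Type) (Pw : Ω → S) (M : ℕ), (img Pw).card ≤ M →
      -- the `y`-blocks
      ∀ (T U : Type) (B Nb : ℕ) (Y : ℕ → Ω → T) (F : ℕ → Ω → U) (a μ : ℝ), 0 < B → 1 < Nb → 0 < a → a ≤ 1 → 0 < μ →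
        (∀ b, b < B → ∃ G : Finset T, G.card ≤ Nb ∧ ∀ ω, 0 < P.w ω → Y b ω ∈ G) →
        (∀ b, b < B → ∀ ω ω', 0 < P.w ω → 0 < P.w ω' → F (b + 1) ω = F (b + 1) ω' → F b ω = F b ω' ∧ Y b ω = Y b ω') →
        Real.log 2 + Real.log (1 / a) ≤ μ / 4 * Real.log Nb →
        μ * B * Real.log Nb ≤ ∑ b ∈ range B, Stk.hc P (Y b) (F b) →
      -- nonnegative functions of the words
      ∀ (ι : Type) (s : Finset ι) (G : ι → S × Finset ℕ → ℝ) (cs : ι → ℝ),
        (∀ j ∈ s, ∀ ω, 0 < P.w ω → 0 ≤ G j (Pw ω, ypat P B Y F a ω)) → (∀ j ∈ s, 0 < cs j) →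
        (∀ j ∈ s, P.ex (fun ω => G j (Pw ω, ypat P B Y F a ω)) ≤ cs j) →
      ∀ d' : ℝ, (s.card + 3) * (2 / μ) * ((β' - β + d + ε) * h * Real.log 2 + (N + 1) * (Real.log M + B * Real.log 2) + K) ≤
          d' * h * Real.log 2 →
      ∃ (w : S) (E : Finset ℕ) (Q : Law Ω), Q = P.cond (fun ω => (Pw ω, ypat P B Y F a ω)) (w, E) ∧
        NEx c lam N k β d' Q l t C L h q W ∧
        μ / (2 * (s.card + 3) * (M * 2 ^ B)) ≤ P.pr (fun ω => (Pw ω, ypat P B Y F a ω)) (w, E) ∧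
        (∀ ω, P.pr (fun ω => (Pw ω, ypat P B Y F a ω)) (w, E) * Q.w ω ≤ P.w ω) ∧
        (∀ ω, 0 < Q.w ω → 0 < P.w ω ∧ Pw ω = w) ∧
        E ⊆ range B ∧ μ / 4 * B ≤ (E.card : ℝ) ∧
        (∀ b ∈ E, ∀ ω, 0 < Q.w ω → cp P (Y b) (F b) ω ≤ a) ∧
        (∀ j ∈ s, G j (w, E) ≤ 2 * (s.card + 3) * cs j / μ) ∧
        (∀ ε₁ : ℝ, a < ε₁ → ∀ E' ⊆ E, (∀ b ∈ E', 2 * ε₁ < colp Q (Y b) (F b)) →
          (E'.card : ℝ) * (ε₁ * Real.log (ε₁ / a) - 1) ≤
            Real.log (2 * (s.card + 3) * (M * 2 ^ B) / μ)) := by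
  classical
  obtain ⟨K, hK0, hK⟩ := nex_sel hc h0 h1 hN hk hββ hF hε
  refine ⟨K, hK0, ?_⟩
  intro Ω _ γ P l t C L h q W d hP S Pw M hM T U B Nb Y F a μ hB hNb ha ha1 hμ hblk hnest hthr hgrow ι s G cs
    hG0 hcs hGa d' hd'
  have hMpos : 0 < M := img_card_pos P Pw hM
  have hMr : (0 : ℝ) < M := by exact_mod_cast hMpos
  have h2B : (0 : ℝ) < 2 ^ B := by positivity
  have hs0 : (0 : ℝ) ≤ s.card := Nat.cast_nonneg _
  have hw := ypat_weight P hB hNb Y F ha ha1 hμ.le hblk hthr hgrow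
  obtain ⟨ω₀, w1, w2, w3, w4, w5⟩ := hK Ω γ P l t C L h q W d hP (S × Finset ℕ) ι
    (fun ω => (Pw ω, ypat P B Y F a ω)) (fun e => μ / 4 * B ≤ (e.2.card : ℝ)) s G cs (μ / 2) (M * 2 ^ B)
    (by positivity) (img_joint P B Y F a Pw hM) hG0 hcs hGa hw d' (by
      refine le_trans (le_of_eq ?_) hd'
      have e1 : Real.log ((M * 2 ^ B : ℕ) : ℝ) = Real.log M + B * Real.log 2 := by
        push_cast
        rw [Real.log_mul hMr.ne' h2B.ne', Real.log_pow]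
      rw [e1]
      have e2 : ((s.card : ℝ) + 3) / (μ / 2) = (s.card + 3) * (2 / μ) := by
        field_simp
      rw [e2])
  set e₀ : S × Finset ℕ := (Pw ω₀, ypat P B Y F a ω₀) with he₀
  set Pt : Ω → S × Finset ℕ := fun ω => (Pw ω, ypat P B Y F a ω) with hPt
  have hp : 0 < P.pr Pt e₀ := P.pr_pos Pt w1
  have hlow : μ / (2 * (s.card + 3) * (M * 2 ^ B)) ≤ P.pr Pt e₀ := by
    refine le_trans (le_of_eq ?_) w3
    push_cast
    field_simp
  have hsupp : ∀ ω, 0 < (P.cond Pt e₀).w ω → 0 < P.w ω ∧ Pw ω = Pw ω₀ ∧ ypat P B Y F a ω = ypat P B Y F a ω₀ := by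
    intro ω hω
    have h2 := cond_supp' P Pt e₀ hp hω
    exact ⟨cond_supp P Pt e₀ hω, (Prod.mk.inj h2).1, (Prod.mk.inj h2).2⟩
  have hcp : ∀ b ∈ ypat P B Y F a ω₀, ∀ ω, 0 < (P.cond Pt e₀).w ω → cp P (Y b) (F b) ω ≤ a := by
    intro b hb ω hω
    rw [← (hsupp ω hω).2.2] at hb
    exact (mem_ypat.1 hb).2
  refine ⟨Pw ω₀, ypat P B Y F a ω₀, P.cond Pt e₀, rfl, w5, hlow, cond_dom P Pt e₀ hp,
    fun ω hω => ⟨(hsupp ω hω).1, (hsupp ω hω).2.1⟩, ypat_sub P B Y F a ω₀, w2, hcp, ?_, ?_⟩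
  · intro j hj
    refine (w4 j hj).trans (le_of_eq ?_)
    field_simp
  · intro ε₁ hε₁ E' hE' hbad
    have h3 := few_bad hp (cond_dom P Pt e₀ hp) Y F B hnest ha hε₁ E'
      (hE'.trans (ypat_sub P B Y F a ω₀)) (fun b hb => hcp b (hE' hb)) hbad
    have h4 : Real.log (1 / P.pr Pt e₀) ≤ Real.log (2 * (s.card + 3) * (M * 2 ^ B) / μ) := by
      refine Real.log_le_log (by positivity) ?_
      rw [div_le_div_iff₀ hp hμ]
      rw [div_le_iff₀ (by positivity)] at hlow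
      linarith
    have h5 : (E'.card : ℝ) * (ε₁ * Real.log (ε₁ / a) - 1) =
        (E'.card : ℝ) * (ε₁ * Real.log (ε₁ / a)) - E'.card := by ring
    rw [h5]
    linarith

end Vale.Agent.P106.U
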