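import Vale.Agent.P106.U.H565.SelB

/-!
# P106 / U / H565 : the second word (W-measurable) and the window of caps (helper565)

* `cp_cond`, `colp_avg` : if `C` determines `Z`, the conditional laws given `C` do not change when a value of `Z` is fixed, and
  the collision probabilities are averages.
* `window` : pigeonhole, a window of blocks with many good blocks.
* `psel2` : second selection: a word `Z` which is a function of the past of all blocks of a window; near-extremality is kept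
  and the blocks stay noncolliding (in the mean over the window).
-/

set_option autoImplicit false

namespace Vale.Agent.P106.U

open Finset Vale.Agent.P127 Vale.Agent.P127.Stk Vale.Agent.P127.U Vale.Agent.P106.W Vale.Agent.P106.K
open Vale.Agent.P127.U.Nonat Vale.Agent.P127.U.YPat Vale.Agent.P127.U.JSB

namespace H565

section second

variable {Ω : Type} [Fintype Ω] {S T U : Type}

/-- `C` determines `Z` on the support -/
def Dtm (P : Law Ω) (C : Ω → T) (Z : Ω → S) : Prop :=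
  ∀ ω ω', 0 < P.w ω → 0 < P.w ω' → C ω = C ω' → Z ω = Z ω'

theorem pr_cond_eq {P : Law Ω} {C : Ω → T} {Z : Ω → S} (h : Dtm P C Z) {z : S} (hz : 0 < P.pr Z z) {ω : Ω}
    (hω : 0 < (P.cond Z z).w ω) : (P.cond Z z).pr C (C ω) = P.pr C (C ω) / P.pr Z z := by
  classical
  have h1 := cond_supp P Z z hω
  have h2 := cond_supp' P Z z hz hω
  unfold Law.pr
  rw [Finset.sum_div]
  rw [Finset.sum_filter, Finset.sum_filter]
  refine Finset.sum_congr rfl fun ω' _ => ?_
  by_cases hC : C ω' = C ω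
  · rw [if_pos hC, if_pos hC, P.cond_w Z z hz]
    rcases (P.nn ω').eq_or_lt with h0 | h0
    · rw [← h0]
      split_ifs <;> simp
    · have : Z ω' = z := by rw [← h2]; exact h ω' ω h0 h1 hC
      rw [if_pos this]
      rfl
  · rw [if_neg hC, if_neg hC]

theorem cp_cond {P : Law Ω} {C : Ω → T} {Z : Ω → S} (h : Dtm P C Z) (X : Ω → U) {z : S} (hz : 0 < P.pr Z z) {ω : Ω}
    (hω : 0 < (P.cond Z z).w ω) : cp (P.cond Z z) X C ω = cp P X C ω := by
  have h' : Dtm P (fun ω => (X ω, C ω)) Z := fun ω ω' a b e => h ω ω' a b (Prod.mk.inj e).2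
  have e1 := pr_cond_eq h hz hω
  have e2 : (P.cond Z z).pr (fun ω => (X ω, C ω)) (X ω, C ω) = P.pr (fun ω => (X ω, C ω)) (X ω, C ω) / P.pr Z z :=
    pr_cond_eq h' hz hω
  unfold cp
  rw [e1, e2]
  have h3 : 0 < P.pr C (C ω) := P.pr_pos C (cond_supp P Z z hω)
  field_simp

/-- collision probabilities are averages -/
theorem colp_avg {P : Law Ω} {C : Ω → T} {Z : Ω → S} (h : Dtm P C Z) (X : Ω → U) :
    P.ex (fun ω => colp (P.cond Z (Z ω)) X C) = colp P X C := by
  rw [P.ex_comp Z (fun z => colp (P.cond Z z) X C)]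
  have h1 := ex_cond_sum P (fun ω => cp P X C ω) Z
  unfold colp
  rw [← h1]
  refine Finset.sum_congr rfl fun z _ => ?_
  rcases (P.pr_nonneg Z z).eq_or_lt with h0 | h0
  · rw [← h0, zero_mul, zero_mul]
  · congr 1
    exact Law.ex_congr _ fun ω hω => cp_cond h X h0 hω

theorem colp_nonneg (Q : Law Ω) (X : Ω → U) (C : Ω → T) : 0 ≤ colp Q X C :=
  Q.ex_nonneg fun ω _ => div_nonneg (Q.pr_nonneg _ _) (Q.pr_nonneg _ _)

/-- the conditional entropies given `C` are averages (the `W`-side does not move) -/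
theorem hc_avg {P : Law Ω} {C : Ω → T} {Z : Ω → S} (h : Dtm P C Z) (X : Ω → U) :
    P.ex (fun ω => Stk.hc (P.cond Z (Z ω)) X C) = Stk.hc P X C := by
  rw [P.ex_comp Z (fun z => Stk.hc (P.cond Z z) X C), ← hc_cond_sum]
  refine le_antisymm ?_ ?_
  · exact Stk.hc_mono_right P X fun _ _ _ _ e => (Prod.mk.inj e).1
  · exact Stk.hc_mono_right P X fun ω ω' hω hω' e => by
      rw [e, h ω ω' hω hω' e]

/-- **pigeonhole over windows** `[w * D, (w + 1) * D)` -/
theorem window {n D : ℕ} {G : Finset ℕ} (hG : G ⊆ range (n * D)) {ρ : ℝ} (h : ρ * (n * D) ≤ (G.card : ℝ)) (hn : 0 < n) :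
    ∃ w < n, ρ * D ≤ ((G.filter fun b => w * D ≤ b ∧ b < (w + 1) * D).card : ℝ) := by
  classical
  by_contra hcon
  push Not at hcon
  have hnr : (0 : ℝ) < n := by exact_mod_cast hn
  have h1 : (G.card : ℝ) ≤ ∑ w ∈ range n, ((G.filter fun b => w * D ≤ b ∧ b < (w + 1) * D).card : ℝ) := by
    have h2 : G ⊆ (range n).biUnion fun w => G.filter fun b => w * D ≤ b ∧ b < (w + 1) * D := by
      intro b hb
      have hb' := Finset.mem_range.1 (hG hb)
      have hD : 0 < D := by
        rcases Nat.eq_zero_or_pos D with h0 | h0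
        · rw [h0, mul_zero] at hb'
          exact absurd hb' (Nat.not_lt_zero _)
        · exact h0
      refine Finset.mem_biUnion.2 ⟨b / D, Finset.mem_range.2 ((Nat.div_lt_iff_lt_mul hD).2 hb'),
        Finset.mem_filter.2 ⟨hb, Nat.div_mul_le_self b D, ?_⟩⟩
      have := Nat.lt_div_mul_add (a := b) hD
      rw [add_mul, one_mul]
      exact this
    have h3 := (Finset.card_le_card h2).trans Finset.card_biUnion_le
    exact_mod_cast h3
  have h2 : ∑ w ∈ range n, ((G.filter fun b => w * D ≤ b ∧ b < (w + 1) * D).card : ℝ) < ∑ _w ∈ range n, ρ * D :=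
    Finset.sum_lt_sum_of_nonempty ⟨0, Finset.mem_range.2 hn⟩ fun w hw => hcon w (Finset.mem_range.1 hw)
  rw [Finset.sum_const, card_range, nsmul_eq_mul] at h2
  have e : (n : ℝ) * (ρ * D) = ρ * (n * D) := by ring
  rw [e] at h2
  linarith

end second

end H565

open H565

/-- **second selection** : the word `Z` (at most `M` values) is a function of the past `F b` of every block `b ∈ G`; one value
of `Z` keeps near-extremality and the mean collision probability of the blocks of `G`, and finitely many averages -/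
theorem psel2 {c lam N k β β' : ℝ} (hc : 1 ≤ c) (h0 : 0 ≤ lam) (h1 : lam ≤ 1) (hN : 0 ≤ N) (hk : 0 ≤ k)
    (hββ : β ≤ β') (hF : FIX c lam N k β') {ε : ℝ} (hε : 0 < ε) :
    ∃ K : ℝ, 0 ≤ K ∧ ∀ (Ω : Type) [Fintype Ω] (γ : Type) (P : Law Ω) (l : Ω → Ry) (t : Ω → ℝ) (C : Ω → γ)
      (L h q : ℕ) (W : Ω → Cbx) (d : ℝ), NEx c lam N k β d P l t C L h q W →
      ∀ (S : Type) (Z : Ω → S) (M : ℕ), (img Z).card ≤ M →
      ∀ (T U : Type) (Y : ℕ → Ω → T) (F : ℕ → Ω → U) (G : Finset ℕ) (ρ : ℝ), 0 < ρ →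
        (∀ b ∈ G, Dtm P (F b) Z) → (∀ b ∈ G, colp P (Y b) (F b) ≤ ρ) →
      ∀ (ι : Type) (s : Finset ι) (H : ι → S → ℝ) (cs : ι → ℝ),
        (∀ j ∈ s, ∀ ω, 0 < P.w ω → 0 ≤ H j (Z ω)) → (∀ j ∈ s, 0 < cs j) →
        (∀ j ∈ s, P.ex (fun ω => H j (Z ω)) ≤ cs j) →
      ∀ d' : ℝ, (s.card + 4) * ((β' - β + d + ε) * h * Real.log 2 + (N + 1) * Real.log M + K) ≤ d' * h * Real.log 2 →
      ∃ (z : S) (Q : Law Ω), Q = P.cond Z z ∧ NEx c lam N k β d' Q l t C L h q W ∧
        1 / ((s.card + 4) * M) ≤ P.pr Z z ∧ (∀ ω, P.pr Z z * Q.w ω ≤ P.w ω) ∧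
        (∀ ω, 0 < Q.w ω → 0 < P.w ω ∧ Z ω = z) ∧
        (∀ j ∈ s, H j z ≤ (s.card + 4) * cs j) ∧
        (∑ b ∈ G, colp Q (Y b) (F b) ≤ (s.card + 4) * (ρ * (G.card + 1))) ∧
        (∀ b ∈ G, ∀ ω, 0 < Q.w ω → cp Q (Y b) (F b) ω = cp P (Y b) (F b) ω) := by
  classical
  obtain ⟨K, hK0, hK⟩ := nex_sel hc h0 h1 hN hk hββ hF hε
  refine ⟨K, hK0, ?_⟩
  intro Ω _ γ P l t C L h q W d hP S Z M hM T U Y F G ρ hρ hdt hcol ι s H cs hH0 hcs hHa d' hd'
  have hs0 : (0 : ℝ) ≤ s.card := Nat.cast_nonneg _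
  set Gf : S → ℝ := fun z => ∑ b ∈ G, colp (P.cond Z z) (Y b) (F b) with hGf
  have hGav : P.ex (fun ω => Gf (Z ω)) ≤ ρ * (G.card + 1) := by
    have e1 : P.ex (fun ω => Gf (Z ω)) = ∑ b ∈ G, P.ex (fun ω => colp (P.cond Z (Z ω)) (Y b) (F b)) :=
      ex_sum' P G (fun b ω => colp (P.cond Z (Z ω)) (Y b) (F b))
    rw [e1]
    have e2 : ∑ b ∈ G, P.ex (fun ω => colp (P.cond Z (Z ω)) (Y b) (F b)) ≤ ∑ _b ∈ G, ρ := by
      refine Finset.sum_le_sum fun b hb => ?_
      rw [colp_avg (hdt b hb)]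
      exact hcol b hb
    rw [Finset.sum_const, nsmul_eq_mul] at e2
    nlinarith
  have hprT : prE P (fun _ => True) = 1 := by
    unfold prE
    rw [Finset.sum_filter]
    simpa using P.sum_one
  have hcard : (((Finset.insertNone s).card : ℕ) : ℝ) = s.card + 1 := by
    rw [Finset.card_insertNone]
    push_cast
    ring
  obtain ⟨ω₀, w1, -, w3, w4, w5⟩ := hK Ω γ P l t C L h q W d hP S (Option ι) Z (fun _ => True)
    (Finset.insertNone s) (fun o z => o.elim (Gf z) (fun j => H j z)) (fun o => o.elim (ρ * (G.card + 1)) cs) 1 M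
    one_pos hM (by
      intro o ho ω hω
      cases o with
      | none => exact Finset.sum_nonneg fun b _ => colp_nonneg _ _ _
      | some j => exact hH0 j (Finset.some_mem_insertNone.1 ho) ω hω) (by
      intro o ho
      cases o with
      | none => exact mul_pos hρ (by positivity)
      | some j => exact hcs j (Finset.some_mem_insertNone.1 ho)) (by
      intro o ho
      cases o with
      | none => exact hGav
      | some j => exact hHa j (Finset.some_mem_insertNone.1 ho)) hprT.ge d' (by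
      refine le_trans (le_of_eq ?_) hd'
      rw [hcard, div_one]
      ring)
  rw [hcard] at w3 w4
  have hp : 0 < P.pr Z (Z ω₀) := P.pr_pos Z w1
  refine ⟨Z ω₀, P.cond Z (Z ω₀), rfl, w5, ?_, cond_dom P Z _ hp,
    fun ω hω => ⟨cond_supp P Z _ hω, cond_supp' P Z _ hp hω⟩, fun j hj => ?_, ?_, fun b hb ω hω => cp_cond (hdt b hb) _ hp hω⟩
  · refine le_trans (le_of_eq ?_) w3
    ring
  · have := w4 (some j) (Finset.some_mem_insertNone.2 hj)
    refine this.trans (le_of_eq ?_)
    show (((s.card : ℝ) + 1) + 3) * cs j / 1 = _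
    ring
  · have := w4 none Finset.none_mem_insertNone
    refine (show Gf (Z ω₀) ≤ _ from this).trans (le_of_eq ?_)
    show (((s.card : ℝ) + 1) + 3) * (ρ * (G.card + 1)) / 1 = _
    ring

end Vale.Agent.P106.U
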