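import Vale.Agent.P106.U.H565.SelC

/-!
# P106 / U / H565 : joint selection of the two words and of the window of caps (helper565)

`PSelJ` (literal, constants explicit), `pSelJ : PSelJ`:

near-extremal system `P` ⇒ law `Q1 = P(. | word 1, y-word)` ⇒ base `w * D` of a window of `D` blocks of caps ⇒ law
`Q2 = Q1(. | word 2)`, where word 2 is ANY function of the past of the base block (for example `449`'s `wd2` with `Z = (W, y_b1)`),
depending on `Q1` and on the window.  Both laws are near-extremal; the `y`-blocks of a subset `G` (at least `μ/16 D` blocks) of the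
window have collision probability `≤ 32 ε₁` under `Q2`; conditional laws given the past of the blocks of the window are the same
under `Q1` and `Q2`; `p₁ p₂ Q2 ≤ P`.
-/

set_option autoImplicit false

namespace Vale.Agent.P106.U

open Finset Vale.Agent.P127 Vale.Agent.P127.Stk Vale.Agent.P127.U Vale.Agent.P106.W Vale.Agent.P106.K
open Vale.Agent.P127.U.Nonat Vale.Agent.P127.U.YPat Vale.Agent.P127.U.JSB H565

/-- the family of the `y`-blocks: nested past, at most `Nb` values, growth -/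
structure YBl {Ω : Type} [Fintype Ω] (P : Law Ω) (B Nb : ℕ) (a μ : ℝ) {T U : Type} (Y : ℕ → Ω → T) (F : ℕ → Ω → U) :
    Prop where
  blk : ∀ b, b < B → ∃ G : Finset T, G.card ≤ Nb ∧ ∀ ω, 0 < P.w ω → Y b ω ∈ G
  nest : ∀ b, b < B → ∀ ω ω', 0 < P.w ω → 0 < P.w ω' → F (b + 1) ω = F (b + 1) ω' → F b ω = F b ω' ∧ Y b ω = Y b ω'
  thr : Real.log 2 + Real.log (1 / a) ≤ μ / 4 * Real.log Nb
  grow : μ * B * Real.log Nb ≤ ∑ b ∈ range B, Stk.hc P (Y b) (F b)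

/-- **the result of the joint selection** -/
structure SelJ {Ω : Type} [Fintype Ω] (P : Law Ω) {S S2 T U : Type} (Pw : Ω → S) (M1 : ℕ) (n D : ℕ) (a μ ε₁ : ℝ)
    (Y : ℕ → Ω → T) (F : ℕ → Ω → U) (Zw : Law Ω → ℕ → Ω → S2) (M2 : ℕ)
    (w : ℕ) (e1 : S) (E : Finset ℕ) (e2 : S2) (Q1 Q2 : Law Ω) (G : Finset ℕ) : Prop where
  hw : w < n
  q1 : Q1 = P.cond (fun ω => (Pw ω, ypat P (n * D) Y F a ω)) (e1, E)
  q2 : Q2 = Q1.cond (Zw Q1 w) e2
  p1 : μ / (6 * (M1 * 2 ^ (n * D))) ≤ P.pr (fun ω => (Pw ω, ypat P (n * D) Y F a ω)) (e1, E)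
  p2 : 1 / (4 * M2) ≤ Q1.pr (Zw Q1 w) e2
  pos1 : 0 < P.pr (fun ω => (Pw ω, ypat P (n * D) Y F a ω)) (e1, E)
  pos2 : 0 < Q1.pr (Zw Q1 w) e2
  dom1 : ∀ ω, P.pr (fun ω => (Pw ω, ypat P (n * D) Y F a ω)) (e1, E) * Q1.w ω ≤ P.w ω
  dom2 : ∀ ω, Q1.pr (Zw Q1 w) e2 * Q2.w ω ≤ Q1.w ω
  sup1 : ∀ ω, 0 < Q1.w ω → 0 < P.w ω ∧ Pw ω = e1 ∧ ypat P (n * D) Y F a ω = E
  sup2 : ∀ ω, 0 < Q2.w ω → 0 < Q1.w ω ∧ Zw Q1 w ω = e2
  /-- the conditional laws given the past of a block of the window do not change -/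
  cpe : ∀ {X : Type} (f : Ω → X) b, w * D ≤ b → b ≤ n * D → ∀ ω, 0 < Q2.w ω → cp Q2 f (F b) ω = cp Q1 f (F b) ω
  gsub : ∀ b ∈ G, b ∈ E ∧ w * D ≤ b ∧ b < (w + 1) * D
  gcard : μ / 16 * D ≤ (G.card : ℝ)
  gcol1 : ∀ b ∈ G, colp Q1 (Y b) (F b) ≤ 2 * ε₁
  gcol2 : ∀ b ∈ G, colp Q2 (Y b) (F b) ≤ 32 * ε₁
  light : ∀ b ∈ E, ∀ ω, 0 < Q1.w ω → cp P (Y b) (F b) ω ≤ a

/-- **joint selection** -/
def PSelJ : Prop :=
  ∀ c lam N k β β' : ℝ, 1 ≤ c → 0 ≤ lam → lam ≤ 1 → 0 ≤ N → 0 ≤ k → β ≤ β' → FIX c lam N k β' → ∀ ε : ℝ, 0 < ε →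
    ∃ K : ℝ, 0 ≤ K ∧ ∀ (Ω : Type) [Fintype Ω] (γ : Type) (P : Law Ω) (l : Ω → Ry) (t : Ω → ℝ) (C : Ω → γ)
      (L h q : ℕ) (W : Ω → Cbx) (d : ℝ), NEx c lam N k β d P l t C L h q W →
      ∀ (S S2 T U : Type) (Pw : Ω → S) (M1 : ℕ) (n D Nb : ℕ) (Y : ℕ → Ω → T) (F : ℕ → Ω → U) (a μ ε₁ : ℝ)
        (Zw : Law Ω → ℕ → Ω → S2) (M2 : ℕ),
        (img Pw).card ≤ M1 → 0 < n → 0 < D → 1 < Nb → 0 < a → a ≤ 1 → 0 < μ → a < ε₁ → 1 < ε₁ * Real.log (ε₁ / a) →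
        YBl P (n * D) Nb a μ Y F →
        Real.log (6 * (M1 * 2 ^ (n * D)) / μ) ≤ μ / 8 * (n * D) * (ε₁ * Real.log (ε₁ / a) - 1) →
        (∀ Q : Law Ω, (∀ ω, 0 < Q.w ω → 0 < P.w ω) → ∀ w < n, (img (Zw Q w)).card ≤ M2 ∧ Dtm Q (F (w * D)) (Zw Q w)) →
      ∀ d1 d2 : ℝ,
        6 / μ * ((β' - β + d + ε) * h * Real.log 2 + (N + 1) * (Real.log M1 + (n * D : ℕ) * Real.log 2) + K) ≤
          d1 * h * Real.log 2 →
        4 * ((β' - β + d1 + ε) * h * Real.log 2 + (N + 1) * Real.log M2 + K) ≤ d2 * h * Real.log 2 →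
      ∃ (w : ℕ) (e1 : S) (E : Finset ℕ) (e2 : S2) (Q1 Q2 : Law Ω) (G : Finset ℕ),
        NEx c lam N k β d1 Q1 l t C L h q W ∧ NEx c lam N k β d2 Q2 l t C L h q W ∧
        SelJ P Pw M1 n D a μ ε₁ Y F Zw M2 w e1 E e2 Q1 Q2 G

namespace H565

theorem nest_down {Ω : Type} [Fintype Ω] {P : Law Ω} {T U : Type} {Y : ℕ → Ω → T} {F : ℕ → Ω → U} {B : ℕ}
    (h : ∀ b, b < B → ∀ ω ω', 0 < P.w ω → 0 < P.w ω' → F (b + 1) ω = F (b + 1) ω' → F b ω = F b ω' ∧ Y b ω = Y b ω')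
    {i j : ℕ} (hij : i ≤ j) (hj : j ≤ B) {ω ω' : Ω} (hω : 0 < P.w ω) (hω' : 0 < P.w ω') (e : F j ω = F j ω') :
    F i ω = F i ω' := by
  induction j, hij using Nat.le_induction with
  | base => exact e
  | succ m _ ih => exact ih (by omega) (h m (by omega) ω ω' hω hω' e).1

end H565

open Classical in
/-- **joint selection** -/
theorem pSelJ : PSelJ := by
  intro c lam N k β β' hc h0 h1 hN hk hββ hF ε hε
  obtain ⟨K1, hK10, hK1⟩ := psel hc h0 h1 hN hk hββ hF hε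
  obtain ⟨K2, hK20, hK2⟩ := psel2 hc h0 h1 hN hk hββ hF hε
  refine ⟨K1 + K2, by positivity, ?_⟩
  intro Ω _ γ P l t C L h q W d hP S S2 T U Pw M1 n D Nb Y F a μ ε₁ Zw M2 hM1 hn hD hNb ha ha1 hμ haε hε1 hY hlog hZ
    d1 d2 hd1 hd2
  have hε₁ : 0 < ε₁ := ha.trans haε
  have hnD : 0 < n * D := Nat.mul_pos hn hD
  have hnDr : (0 : ℝ) < ((n * D : ℕ) : ℝ) := by exact_mod_cast hnD
  have hDr : (0 : ℝ) < D := by exact_mod_cast hD
  have hcast : ((n * D : ℕ) : ℝ) = (n : ℝ) * D := by push_cast; ring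
  obtain ⟨e1, E, Q1, q1, nex1, r1, dm1, sp1, Esub, Ecard, lgt, -, few⟩ := hK1 Ω γ P l t C L h q W d hP S Pw M1 hM1 T U
    (n * D) Nb Y F a μ hnD hNb ha ha1 hμ hY.blk hY.nest hY.thr hY.grow Unit ∅ (fun _ _ => 0) (fun _ => 1)
    (by simp) (by simp) (by simp) d1 (by
      refine le_trans ?_ hd1
      rw [Finset.card_empty, Nat.cast_zero, zero_add]
      have e0 : (3 : ℝ) * (2 / μ) = 6 / μ := by ring
      rw [e0]
      refine mul_le_mul_of_nonneg_left ?_ (by positivity)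
      linarith)
  simp only [Finset.card_empty, Nat.cast_zero, zero_add] at r1 few
  have e6 : (2 : ℝ) * 3 = 6 := by norm_num
  rw [e6] at r1 few
  have hM1pos : 0 < M1 := H565.img_card_pos P Pw hM1
  have hM1r : (0 : ℝ) < M1 := by exact_mod_cast hM1pos
  -- the good blocks
  set bad : Finset ℕ := E.filter fun b => 2 * ε₁ < colp Q1 (Y b) (F b) with hbad
  have hbadcard : (bad.card : ℝ) ≤ μ / 8 * ((n * D : ℕ) : ℝ) := by
    have b1 := few ε₁ haε bad (Finset.filter_subset _ _) fun b hb => (Finset.mem_filter.1 hb).2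
    have b2 : 0 < ε₁ * Real.log (ε₁ / a) - 1 := by linarith
    rw [← hcast] at hlog
    exact le_of_mul_le_mul_right (b1.trans hlog) b2
  set G1 : Finset ℕ := E \ bad with hG1
  have hG1card : μ / 8 * ((n : ℝ) * D) ≤ (G1.card : ℝ) := by
    have b1 : (E.card : ℝ) ≤ G1.card + bad.card := by
      have : E.card ≤ G1.card + bad.card := by
        rw [hG1, Finset.card_sdiff_add_card]
        exact Finset.card_le_card Finset.subset_union_left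
      exact_mod_cast this
    have b2 : μ / 4 * ((n * D : ℕ) : ℝ) = μ / 8 * ((n * D : ℕ) : ℝ) + μ / 8 * ((n * D : ℕ) : ℝ) := by ring
    rw [← hcast]
    linarith
  obtain ⟨w, hw, hwc⟩ := H565.window (G := G1) (n := n) (D := D) (ρ := μ / 8)
    (Finset.sdiff_subset.trans Esub) hG1card hn
  set G2 : Finset ℕ := G1.filter fun b => w * D ≤ b ∧ b < (w + 1) * D with hG2
  have hG2E : ∀ b ∈ G2, b ∈ E ∧ ¬ 2 * ε₁ < colp Q1 (Y b) (F b) ∧ w * D ≤ b ∧ b < (w + 1) * D := by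
    intro b hb
    obtain ⟨b1, b2⟩ := Finset.mem_filter.1 hb
    obtain ⟨b3, b4⟩ := Finset.mem_sdiff.1 b1
    refine ⟨b3, fun h => b4 (Finset.mem_filter.2 ⟨b3, h⟩), b2⟩
  have hsupP : ∀ ω, 0 < Q1.w ω → 0 < P.w ω := fun ω hω => (sp1 ω hω).1
  obtain ⟨hMc, hdt⟩ := hZ Q1 hsupP w hw
  have hwD : (w + 1) * D ≤ n * D := Nat.mul_le_mul_right _ hw
  have hdtb : ∀ b, w * D ≤ b → b ≤ n * D → Dtm Q1 (F b) (Zw Q1 w) := by
    intro b hb1 hb2 ω ω' hω hω' e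
    exact hdt ω ω' hω hω' (H565.nest_down hY.nest hb1 hb2 (hsupP ω hω) (hsupP ω' hω') e)
  obtain ⟨e2, Q2, q2, nex2, r2, dm2, sp2, -, sumc, cpe⟩ := hK2 Ω γ Q1 l t C L h q W d1 nex1 S2 (Zw Q1 w) M2 hMc
    T U Y F G2 (2 * ε₁) (by positivity) (fun b hb => hdtb b (hG2E b hb).2.2.1 (by
      have := (hG2E b hb).2.2.2
      omega)) (fun b hb => not_lt.1 (hG2E b hb).2.1) Unit ∅ (fun _ _ => 0)
    (fun _ => 1) (by simp) (by simp) (by simp) d2 (by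
      refine le_trans ?_ hd2
      rw [Finset.card_empty, Nat.cast_zero, zero_add]
      refine mul_le_mul_of_nonneg_left ?_ (by norm_num)
      linarith)
  simp only [Finset.card_empty, Nat.cast_zero, zero_add] at r2 sumc
  have hM2pos : 0 < M2 := H565.img_card_pos Q1 (Zw Q1 w) hMc
  have hM2r : (0 : ℝ) < M2 := by exact_mod_cast hM2pos
  have hpos1 : 0 < P.pr (fun ω => (Pw ω, ypat P (n * D) Y F a ω)) (e1, E) := lt_of_lt_of_le (by positivity) r1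
  have hpos2 : 0 < Q1.pr (Zw Q1 w) e2 := lt_of_lt_of_le (by positivity) r2
  -- the good blocks for the second law
  have hG2pos : 1 ≤ G2.card := by
    have : (0 : ℝ) < G2.card := lt_of_lt_of_le (by positivity) hwc
    exact_mod_cast this
  set G : Finset ℕ := G2.filter fun b => colp Q2 (Y b) (F b) ≤ 32 * ε₁ with hG
  have hGcard : (G2.card : ℝ) / 2 ≤ G.card := by
    have b1 : (G2.card : ℝ) = G.card + (G2.filter fun b => ¬ colp Q2 (Y b) (F b) ≤ 32 * ε₁).card := by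
      have := Finset.card_filter_add_card_filter_not (s := G2) (fun b => colp Q2 (Y b) (F b) ≤ 32 * ε₁)
      exact_mod_cast this.symm
    have b2 : ((G2.filter fun b => ¬ colp Q2 (Y b) (F b) ≤ 32 * ε₁).card : ℝ) * (32 * ε₁) ≤
        ∑ b ∈ G2, colp Q2 (Y b) (F b) := by
      calc ((G2.filter fun b => ¬ colp Q2 (Y b) (F b) ≤ 32 * ε₁).card : ℝ) * (32 * ε₁)
          = ∑ _b ∈ G2.filter fun b => ¬ colp Q2 (Y b) (F b) ≤ 32 * ε₁, 32 * ε₁ := by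
            rw [Finset.sum_const, nsmul_eq_mul]
        _ ≤ ∑ b ∈ G2.filter fun b => ¬ colp Q2 (Y b) (F b) ≤ 32 * ε₁, colp Q2 (Y b) (F b) :=
            Finset.sum_le_sum fun b hb => (not_le.1 (Finset.mem_filter.1 hb).2).le
        _ ≤ _ := Finset.sum_le_sum_of_subset_of_nonneg (Finset.filter_subset _ _) fun b _ _ =>
            H565.colp_nonneg _ _ _
    have b3 : (1 : ℝ) ≤ G2.card := by exact_mod_cast hG2pos
    have b4 : (4 : ℝ) * (2 * ε₁ * (G2.card + 1)) ≤ 16 * ε₁ * G2.card := by nlinarith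
    have b5 : ((G2.filter fun b => ¬ colp Q2 (Y b) (F b) ≤ 32 * ε₁).card : ℝ) * (32 * ε₁) ≤
        (G2.card : ℝ) / 2 * (32 * ε₁) := by linarith
    have b6 := le_of_mul_le_mul_right b5 (by positivity)
    linarith
  refine ⟨w, e1, E, e2, Q1, Q2, G, nex1, nex2, ⟨hw, q1, q2, r1, r2, hpos1, hpos2, dm1, dm2, ?_, fun ω hω => sp2 ω hω, ?_, ?_, ?_,
    ?_, ?_, lgt⟩⟩
  · intro ω hω
    rw [q1] at hω
    have h2 := cond_supp' P (fun ω => (Pw ω, ypat P (n * D) Y F a ω)) (e1, E) hpos1 hω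
    exact ⟨cond_supp P _ _ hω, (Prod.mk.inj h2).1, (Prod.mk.inj h2).2⟩
  · intro X f b hb1 hb2 ω hω
    rw [q2] at hω ⊢
    exact H565.cp_cond (hdtb b hb1 hb2) f hpos2 hω
  · intro b hb
    obtain ⟨b1, b2⟩ := Finset.mem_filter.1 hb
    have := hG2E b b1
    exact ⟨this.1, this.2.2⟩
  · have b1 : μ / 16 * (D : ℝ) = μ / 8 * D / 2 := by ring
    rw [b1]
    linarith
  · intro b hb
    exact not_lt.1 (hG2E b (Finset.mem_filter.1 hb).1).2.1
  · intro b hb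
    exact (Finset.mem_filter.1 hb).2

end Vale.Agent.P106.U
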